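import Vale.Agent.P132.Iface

/-!
# Integrals along the real axis of functions on a strip
-/

namespace Vale.Agent.P132.Tomita

open scoped Topology ComplexConjugate FourierTransform
open Filter MeasureTheory Complex

/-- `2 cosh (π t)`. -/
noncomputable def den (t : ℝ) : ℝ := 2 * Real.cosh (Real.pi * t)

theorem den_pos (t : ℝ) : 0 < den t := by unfold den; positivity [Real.cosh_pos (Real.pi * t)]

theorem exp_abs_le_den (t : ℝ) : Real.exp (Real.pi * |t|) ≤ den t := by
  rw [den, Real.cosh_eq]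
  rcases le_total 0 t with h | h
  · rw [abs_of_nonneg h]
    nlinarith [Real.exp_pos (-(Real.pi * t))]
  · rw [abs_of_nonpos h, mul_neg]
    nlinarith [Real.exp_pos (Real.pi * t)]

theorem continuous_den : Continuous den := by unfold den; fun_prop

theorem integrable_exp_abs {a : ℝ} (ha : 0 < a) :
    Integrable fun t : ℝ => Real.exp (-(a * |t|)) := by
  refine (integrable_inv_one_add_sq.const_mul (1 + 2 / a ^ 2)).mono' (by fun_prop)
    (Eventually.of_forall fun t => ?_)
  rw [Real.norm_of_nonneg (Real.exp_pos _).le, ← div_eq_mul_inv, Real.exp_neg, inv_eq_one_div,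
    div_le_div_iff₀ (Real.exp_pos _) (by positivity)]
  have h := Real.quadratic_le_exp_of_nonneg (mul_nonneg ha.le (abs_nonneg t))
  have h1 : t ^ 2 ≤ 2 / a ^ 2 * Real.exp (a * |t|) := by
    rw [div_mul_eq_mul_div, le_div_iff₀ (by positivity), ← sq_abs t]
    nlinarith [abs_nonneg t]
  nlinarith [Real.one_le_exp (mul_nonneg ha.le (abs_nonneg t))]

theorem norm_div_den_le {t κ C : ℝ} {w : ℂ} (hw : ‖w‖ ≤ C * Real.exp (κ * |t|)) :
    ‖w / (den t : ℂ)‖ ≤ C * Real.exp (-((Real.pi - κ) * |t|)) := by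
  rw [norm_div, Complex.norm_real, Real.norm_of_nonneg (den_pos t).le, div_le_iff₀ (den_pos t)]
  have hC : 0 ≤ C := by
    nlinarith [norm_nonneg w, Real.exp_pos (κ * |t|)]
  calc ‖w‖ ≤ C * Real.exp (κ * |t|) := hw
    _ = C * Real.exp (-((Real.pi - κ) * |t|)) * Real.exp (Real.pi * |t|) := by
        rw [mul_assoc, ← Real.exp_add]; ring_nf
    _ ≤ _ := mul_le_mul_of_nonneg_left (exp_abs_le_den t) (by positivity)

theorem integrable_div_den {f : ℝ → ℂ} (hf : Continuous f) {κ C : ℝ} (hκ : κ < Real.pi)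
    (hb : ∀ t, ‖f t‖ ≤ C * Real.exp (κ * |t|)) : Integrable fun t => f t / (den t : ℂ) :=
  ((integrable_exp_abs (sub_pos.2 hκ)).const_mul C).mono'
    (hf.div (continuous_ofReal.comp continuous_den)
      fun t => ofReal_ne_zero.2 (den_pos t).ne').aestronglyMeasurable
    (Eventually.of_forall fun t => norm_div_den_le (hb t))

theorem integrable_inv_den : Integrable fun t => (den t)⁻¹ := by
  refine (integrable_exp_abs Real.pi_pos).mono'
    (continuous_den.inv₀ fun t => (den_pos t).ne').aestronglyMeasurable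
    (Eventually.of_forall fun t => ?_)
  rw [Real.norm_of_nonneg (inv_nonneg.2 (den_pos t).le), Real.exp_neg]
  exact inv_anti₀ (Real.exp_pos _) (exp_abs_le_den t)

theorem integral_inv_den : ∫ t : ℝ, (den t)⁻¹ = 1 / 2 := by
  have hint := integrable_inv_den
  have hd : ∀ t : ℝ,
      HasDerivAt (fun t => Real.arctan (Real.exp (Real.pi * t)) / Real.pi) (den t)⁻¹ t := by
    intro t
    refine HasDerivAt.congr_deriv
      ((((hasDerivAt_id t).const_mul Real.pi).exp).arctan.div_const Real.pi) ?_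
    rw [den, Real.cosh_eq, Real.exp_neg]
    have := Real.exp_pos (Real.pi * t)
    have := Real.pi_pos
    simp only [id_eq, mul_one]
    field_simp
    ring
  have hbot : Tendsto (fun t : ℝ => Real.arctan (Real.exp (Real.pi * t)) / Real.pi) atBot (𝓝 0) := by
    have := ((Real.continuous_arctan.tendsto 0).comp
      (Real.tendsto_exp_atBot.comp (tendsto_id.const_mul_atBot Real.pi_pos))).div_const Real.pi
    simpa [Function.comp_def] using this
  have htop : Tendsto (fun t : ℝ => Real.arctan (Real.exp (Real.pi * t)) / Real.pi) atTop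
      (𝓝 (1 / 2)) := by
    have := ((Real.tendsto_arctan_atTop.mono_right nhdsWithin_le_nhds).comp
      (Real.tendsto_exp_atTop.comp (tendsto_id.const_mul_atTop Real.pi_pos))).div_const Real.pi
    rw [show Real.pi / 2 / Real.pi = 1 / 2 by field_simp] at this
    simpa [Function.comp_def] using this
  rw [integral_of_hasDerivAt_of_tendsto hd hint hbot htop, sub_zero]

theorem sinh_pi_ne_zero {z : ℂ} (hz : z ≠ 0) (him : |z.im| ≤ 1 / 2) :
    sinh ((Real.pi : ℂ) * z) ≠ 0 := by
  intro h
  rw [← re_add_im ((Real.pi : ℂ) * z), sinh_add, cosh_mul_I, sinh_mul_I, re_ofReal_mul,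
    im_ofReal_mul, ← ofReal_sinh, ← ofReal_cosh, ← ofReal_sin, ← ofReal_cos] at h
  have h1 := congrArg re h
  have h2 := congrArg im h
  simp only [add_re, add_im, mul_re, mul_im, ofReal_re, ofReal_im, I_re, I_im, zero_re,
    zero_im, mul_zero, zero_mul, sub_zero, add_zero, zero_add, mul_one] at h1 h2
  have hsin : Real.sin (Real.pi * z.im) = 0 :=
    (mul_eq_zero.1 h2).resolve_left (Real.cosh_pos _).ne'
  obtain ⟨hl, hr⟩ := abs_le.1 him
  have hy : Real.pi * z.im = 0 := (Real.sin_eq_zero_iff_of_lt_of_lt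
    (by nlinarith [Real.pi_pos]) (by nlinarith [Real.pi_pos])).1 hsin
  rw [hy, Real.cos_zero, mul_one, Real.sinh_eq_zero] at h1
  exact hz (Complex.ext (by simpa [Real.pi_ne_zero] using h1) (by simpa [Real.pi_ne_zero] using hy))

theorem norm_sinh_ge {T s : ℝ} (hT : 1 ≤ |T|) :
    Real.exp (Real.pi * |T|) / 4 ≤ ‖sinh ((Real.pi : ℂ) * ((T : ℂ) + (s : ℂ) * I))‖ := by
  rw [sinh, norm_div, Complex.norm_ofNat]
  have h := abs_norm_sub_norm_le (exp ((Real.pi : ℂ) * ((T : ℂ) + (s : ℂ) * I)))
    (exp (-((Real.pi : ℂ) * ((T : ℂ) + (s : ℂ) * I))))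
  simp only [Complex.norm_exp, neg_re, add_re, ofReal_re, mul_re, ofReal_im,
    I_re, I_im, mul_zero, zero_mul, sub_zero, add_zero] at h
  refine le_trans ?_ (div_le_div_of_nonneg_right h zero_le_two)
  set q := Real.exp (Real.pi * |T|)
  have hq : 2 ≤ q := le_trans (by nlinarith [Real.two_le_pi]) (Real.add_one_le_exp _)
  have hinv : Real.exp (-(Real.pi * |T|)) ≤ 1 / 2 := by
    rw [Real.exp_neg, one_div]; exact inv_anti₀ two_pos hq
  rcases le_total 0 T with h0 | h0
  · rw [abs_of_nonneg h0] at hinv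
    have : q = Real.exp (Real.pi * T) := by simp [q, abs_of_nonneg h0]
    rw [abs_of_nonneg (by linarith)]
    linarith
  · rw [abs_of_nonpos h0, mul_neg, neg_neg] at hinv
    have : q = Real.exp (-(Real.pi * T)) := by simp [q, abs_of_nonpos h0]
    rw [abs_of_nonpos (by linarith)]
    linarith

/-- A function of exponential type less than `π` is recovered on the strip from its boundary
values. -/
theorem strip_integral {G : ℂ → ℂ} (hG : Differentiable ℂ G) {κ C : ℝ} (hκ : κ < Real.pi)
    (hb : ∀ z : ℂ, |z.im| ≤ 1 / 2 → ‖G z‖ ≤ C * Real.exp (κ * |z.re|)) :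
    ∫ t : ℝ, (G ((t : ℂ) + I / 2) + G ((t : ℂ) - I / 2)) / (den t : ℂ) = G 0 := by
  set κ' := max κ 0
  have hκ' : κ' < Real.pi := max_lt hκ Real.pi_pos
  have hC : 0 ≤ C := by
    have := hb 0 (by simp)
    simp at this
    linarith [norm_nonneg (G 0)]
  set C' := C + ‖G 0‖
  set K : ℂ → ℂ := fun z => G z - G 0
  have hK : Differentiable ℂ K := hG.sub_const _
  have hKb : ∀ z : ℂ, |z.im| ≤ 1 / 2 → ‖K z‖ ≤ C' * Real.exp (κ' * |z.re|) := by
    intro z hz
    refine (norm_sub_le _ _).trans ?_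
    have h1 : Real.exp (κ * |z.re|) ≤ Real.exp (κ' * |z.re|) :=
      Real.exp_le_exp.2 (mul_le_mul_of_nonneg_right (le_max_left _ _) (abs_nonneg _))
    have h2 : 1 ≤ Real.exp (κ' * |z.re|) :=
      Real.one_le_exp (mul_nonneg (le_max_right _ _) (abs_nonneg _))
    nlinarith [hb z hz, mul_le_mul_of_nonneg_left h1 hC, norm_nonneg (G 0)]
  have hup : ∀ t : ℝ, |((t : ℂ) + I / 2).im| ≤ 1 / 2 := fun t => by norm_num
  have hdn : ∀ t : ℝ, |((t : ℂ) - I / 2).im| ≤ 1 / 2 := fun t => by norm_num
  have hcont : Continuous fun t : ℝ => K ((t : ℂ) + I / 2) + K ((t : ℂ) - I / 2) :=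
    (hK.continuous.comp (by fun_prop)).add (hK.continuous.comp (by fun_prop))
  have hint : Integrable fun t : ℝ =>
      (K ((t : ℂ) + I / 2) + K ((t : ℂ) - I / 2)) / (den t : ℂ) :=
    integrable_div_den hcont hκ' (C := 2 * C') fun t => (norm_add_le _ _).trans (by
      have h1 := hKb _ (hup t)
      have h2 := hKb _ (hdn t)
      norm_num at h1 h2
      linarith)
  -- the quotient is holomorphic on the closed strip
  set S : ℂ → ℂ := fun z => sinh ((Real.pi : ℂ) * z) with hS
  have hSd : Differentiable ℂ S := by fun_prop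
  set φ : ℂ → ℂ := fun z => dslope K 0 z / dslope S 0 z with hφ
  have hK0 : K 0 = 0 := sub_self _
  have hS0 : S 0 = 0 := by simp [S]
  have hφ' : ∀ z : ℂ, z ≠ 0 → φ z = K z / S z := fun z hz => by
    rw [hφ]
    simp only [dslope_of_ne _ hz, slope_def_field, hK0, hS0, sub_zero]
    field_simp
  have hne : ∀ z : ℂ, |z.im| ≤ 1 / 2 → dslope S 0 z ≠ 0 := fun z hz => by
    by_cases h : z = 0
    · have hd : HasDerivAt S (Real.pi : ℂ) 0 := by
        simpa [S] using ((hasDerivAt_id (0 : ℂ)).const_mul (Real.pi : ℂ)).csinh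
      rw [h, dslope_same, hd.deriv]
      exact_mod_cast Real.pi_ne_zero
    · rw [dslope_of_ne _ h, slope_def_field, hS0, sub_zero, sub_zero]
      exact div_ne_zero (sinh_pi_ne_zero h hz) h
  have hdsl : ∀ f : ℂ → ℂ, Differentiable ℂ f → Differentiable ℂ (dslope f 0) := fun f hf =>
    differentiableOn_univ.1 ((differentiableOn_dslope Filter.univ_mem).2 hf.differentiableOn)
  have key : ∀ T : ℝ, 1 ≤ T →
      ‖∫ t in -T..T, (K ((t : ℂ) + I / 2) + K ((t : ℂ) - I / 2)) / (den t : ℂ)‖ ≤
        4 * C' * Real.exp (-((Real.pi - κ') * T)) := by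
    intro T hT
    set z₀ : ℂ := ((-T : ℝ) : ℂ) - I / 2 with hz₀
    set w₀ : ℂ := (T : ℂ) + I / 2 with hw₀
    have hd : DifferentiableOn ℂ φ (Set.uIcc z₀.re w₀.re ×ℂ Set.uIcc z₀.im w₀.im) := by
      intro z hz
      have : |z.im| ≤ 1 / 2 := by
        have h := hz.2
        norm_num [hz₀, hw₀, Set.uIcc_of_le] at h
        exact abs_le.2 ⟨by linarith [h.1], by linarith [h.2]⟩
      exact ((hdsl K hK z).div (hdsl S hSd z) (hne z this)).differentiableWithinAt
    have hrect := integral_boundary_rect_eq_zero_of_differentiableOn φ z₀ w₀ hd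
    norm_num [hz₀, hw₀] at hrect
    have hmid : ∀ t : ℝ, φ ((t : ℂ) + -((1 / 2 : ℂ) * I)) - φ ((t : ℂ) + (1 / 2 : ℂ) * I) =
        (2 * I) * ((K ((t : ℂ) + I / 2) + K ((t : ℂ) - I / 2)) / (den t : ℂ)) := by
      intro t
      rw [show (t : ℂ) + -((1 / 2 : ℂ) * I) = (t : ℂ) - I / 2 by ring,
        show (t : ℂ) + (1 / 2 : ℂ) * I = (t : ℂ) + I / 2 by ring,
        hφ' _ (fun h => by simpa using congrArg im h),
        hφ' _ (fun h => by simpa using congrArg im h)]
      have e1 : S ((t : ℂ) + I / 2) = I * ((den t : ℂ) / 2) := by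
        simp only [S]
        rw [show (Real.pi : ℂ) * ((t : ℂ) + I / 2) =
            ((Real.pi * t : ℝ) : ℂ) + ((Real.pi / 2 : ℝ) : ℂ) * I by push_cast; ring,
          sinh_add, cosh_mul_I, sinh_mul_I, ← ofReal_cos, ← ofReal_sin, Real.cos_pi_div_two,
          Real.sin_pi_div_two, ← ofReal_cosh]
        simp [den]
        ring
      have e2 : S ((t : ℂ) - I / 2) = -(I * ((den t : ℂ) / 2)) := by
        simp only [S]
        rw [show (Real.pi : ℂ) * ((t : ℂ) - I / 2) =
            ((Real.pi * t : ℝ) : ℂ) + ((-(Real.pi / 2) : ℝ) : ℂ) * I by push_cast; ring,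
          sinh_add, cosh_mul_I, sinh_mul_I, ← ofReal_cos, ← ofReal_sin, Real.cos_neg,
          Real.sin_neg, Real.cos_pi_div_two, Real.sin_pi_div_two, ← ofReal_cosh]
        simp [den]
        ring
      rw [e1, e2]
      have hinv : (I * ((den t : ℂ) / 2))⁻¹ = -(2 * I) / (den t : ℂ) := by
        rw [mul_inv, inv_I, inv_div]; ring
      rw [div_neg, div_eq_mul_inv, div_eq_mul_inv, hinv]
      ring_nf
      simp [inv_I]
      ring
    have hφc : ∀ c : ℂ, |c.im| ≤ 1 / 2 → ContinuousAt φ c := fun c hc =>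
      ((hdsl K hK c).div (hdsl S hSd c) (hne c hc)).continuousAt
    have hi1 : IntervalIntegrable (fun x : ℝ => φ ((x : ℂ) + -((1 / 2 : ℂ) * I))) volume (-T) T :=
      (continuous_iff_continuousAt.2 fun x =>
        (hφc _ (by norm_num)).comp (f := fun x : ℝ => (x : ℂ) + -((1 / 2 : ℂ) * I))
          (by fun_prop)).intervalIntegrable _ _
    have hi2 : IntervalIntegrable (fun x : ℝ => φ ((x : ℂ) + (1 / 2 : ℂ) * I)) volume (-T) T :=
      (continuous_iff_continuousAt.2 fun x =>
        (hφc _ (by norm_num)).comp (f := fun x : ℝ => (x : ℂ) + (1 / 2 : ℂ) * I)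
          (by fun_prop)).intervalIntegrable _ _
    rw [← intervalIntegral.integral_sub hi1 hi2, funext hmid,
      intervalIntegral.integral_const_mul] at hrect
    have hside : ∀ a : ℝ, |a| = T → ∀ y ∈ Set.uIoc (-(1 / 2) : ℝ) (1 / 2),
        ‖φ ((a : ℂ) + (y : ℂ) * I)‖ ≤ 4 * C' * Real.exp (-((Real.pi - κ') * T)) := by
      intro a ha y hy
      rw [Set.uIoc_of_le (by norm_num)] at hy
      have hy' : |((a : ℂ) + (y : ℂ) * I).im| ≤ 1 / 2 := by
        simpa using abs_le.2 ⟨hy.1.le, hy.2⟩
      have hz : (a : ℂ) + (y : ℂ) * I ≠ 0 := fun h => by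
        have := congrArg re h
        simp at this
        subst this
        simp at ha
        linarith
      rw [hφ' _ hz, norm_div]
      have h1 := hKb _ hy'
      simp only [add_re, ofReal_re, mul_re, I_re, mul_zero, ofReal_im, I_im, mul_one, sub_zero,
        add_zero, ha] at h1
      have h2 := norm_sinh_ge (T := a) (s := y) (by rw [ha]; exact hT)
      rw [ha] at h2
      rw [div_le_iff₀ (lt_of_lt_of_le (by positivity) h2)]
      calc ‖K ((a : ℂ) + (y : ℂ) * I)‖ ≤ C' * Real.exp (κ' * T) := h1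
        _ = 4 * C' * Real.exp (-((Real.pi - κ') * T)) * (Real.exp (Real.pi * T) / 4) := by
            rw [show κ' * T = -((Real.pi - κ') * T) + Real.pi * T by ring, Real.exp_add]; ring
        _ ≤ _ := mul_le_mul_of_nonneg_left h2 (by positivity)
    have v1 := intervalIntegral.norm_integral_le_of_norm_le_const (hside T (abs_of_pos (by linarith)))
    have v2 := intervalIntegral.norm_integral_le_of_norm_le_const
      (hside (-T) (by rw [abs_neg, abs_of_pos (by linarith)]))
    norm_num at v1 v2 hrect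
    set V : ℂ := ∫ t in -T..T, (K ((t : ℂ) + I / 2) + K ((t : ℂ) - I / 2)) / (den t : ℂ)
    have hV : ‖(2 * I) * V‖ ≤ 8 * C' * Real.exp (-((Real.pi - κ') * T)) := by
      set P := ∫ y : ℝ in -(1 / 2 : ℝ)..(1 / 2 : ℝ), φ ((T : ℂ) + (y : ℂ) * I)
      set Q := ∫ y : ℝ in -(1 / 2 : ℝ)..(1 / 2 : ℝ), φ (-(T : ℂ) + (y : ℂ) * I)
      rw [show (2 * I) * V = I * Q - I * P by linear_combination hrect]
      refine (norm_sub_le _ _).trans ?_
      rw [norm_mul, norm_mul, norm_I]
      linarith
    rw [norm_mul, norm_mul, norm_I, Complex.norm_ofNat] at hV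
    linarith
  have hlim : Tendsto (fun T : ℝ =>
      ∫ t in -T..T, (K ((t : ℂ) + I / 2) + K ((t : ℂ) - I / 2)) / (den t : ℂ)) atTop (𝓝 0) := by
    refine squeeze_zero_norm' ((eventually_ge_atTop 1).mono key) ?_
    simpa using (Real.tendsto_exp_neg_atTop_nhds_zero.comp
      (tendsto_id.const_mul_atTop (sub_pos.2 hκ'))).const_mul (4 * C')
  have hzero := tendsto_nhds_unique
    (intervalIntegral_tendsto_integral hint tendsto_neg_atTop_atBot tendsto_id) hlim
  have hcst : Integrable fun t : ℝ => 2 * G 0 * (((den t)⁻¹ : ℝ) : ℂ) :=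
    integrable_inv_den.ofReal.const_mul _
  calc ∫ t : ℝ, (G ((t : ℂ) + I / 2) + G ((t : ℂ) - I / 2)) / (den t : ℂ)
      = ∫ t : ℝ, ((K ((t : ℂ) + I / 2) + K ((t : ℂ) - I / 2)) / (den t : ℂ) +
          2 * G 0 * (((den t)⁻¹ : ℝ) : ℂ)) := by
        refine integral_congr_ae (Eventually.of_forall fun t => ?_)
        simp only [K, ofReal_inv]
        ring
    _ = G 0 := by
        rw [integral_add hint hcst, hzero, integral_const_mul, integral_complex_ofReal,
          integral_inv_den]
        push_cast; ring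

/-- A function decaying like `exp (-π |t|)` with vanishing Laplace transform on `(-π, π)` is zero. -/
theorem eq_zero_of_laplace {K : ℝ → ℂ} (hK : Continuous K) {C : ℝ}
    (hb : ∀ t, ‖K t‖ ≤ C * Real.exp (-(Real.pi * |t|)))
    (h : ∀ θ : ℝ, |θ| < Real.pi → ∫ t : ℝ, exp ((θ : ℂ) * (t : ℂ)) * K t = 0) : K = 0 := by
  set L : ℂ → ℂ := fun s => ∫ t : ℝ, exp (s * (t : ℂ)) * K t with hL
  set U : Set ℂ := re ⁻¹' Set.Ioo (-Real.pi) Real.pi with hU
  have hUo : IsOpen U := isOpen_Ioo.preimage continuous_re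
  have hC : 0 ≤ C := by
    have := hb 0
    simp at this
    linarith [norm_nonneg (K 0)]
  have hbd : ∀ (s : ℂ) (t : ℝ), ‖exp (s * (t : ℂ)) * K t‖ ≤
      C * Real.exp (-((Real.pi - |s.re|) * |t|)) := by
    intro s t
    rw [norm_mul, Complex.norm_exp, re_mul_ofReal]
    calc Real.exp (s.re * t) * ‖K t‖
        ≤ Real.exp (|s.re| * |t|) * (C * Real.exp (-(Real.pi * |t|))) := by
          refine mul_le_mul (Real.exp_le_exp.2 ?_) (hb t) (norm_nonneg _) (Real.exp_pos _).le
          rw [← abs_mul]; exact le_abs_self _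
      _ = _ := by rw [mul_left_comm, ← Real.exp_add]; ring_nf
  have hd : DifferentiableOn ℂ L U := by
    intro s hs
    have hs' : |s.re| < Real.pi := abs_lt.2 hs
    set r := (Real.pi - |s.re|) / 3 with hr
    have hr0 : 0 < r := by rw [hr]; linarith
    refine DifferentiableAt.differentiableWithinAt (HasDerivAt.differentiableAt
      (hasDerivAt_integral_of_dominated_loc_of_deriv_le (Metric.ball_mem_nhds s hr0)
        (bound := fun t => C / r * Real.exp (-(r * |t|)))
        (F' := fun z t => exp (z * (t : ℂ)) * (t : ℂ) * K t)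
        (Eventually.of_forall fun z => by fun_prop) ?_ (by fun_prop) ?_
        ((integrable_exp_abs hr0).const_mul _) ?_).2)
    · exact ((integrable_exp_abs (sub_pos.2 hs')).const_mul C).mono' (by fun_prop)
        (Eventually.of_forall (hbd s))
    · refine Eventually.of_forall fun t z hz => ?_
      have hz' : |z.re| ≤ |s.re| + r := by
        have h1 := (abs_re_le_norm (z - s)).trans_lt (mem_ball_iff_norm.1 hz)
        rw [sub_re] at h1
        linarith [abs_sub_abs_le_abs_sub z.re s.re]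
      have h2 := hbd z t
      rw [norm_mul] at h2
      rw [norm_mul, norm_mul, Complex.norm_real, Real.norm_eq_abs]
      have h3 : |t| ≤ Real.exp (r * |t|) / r := by
        rw [le_div_iff₀ hr0]; linarith [Real.add_one_le_exp (r * |t|)]
      calc ‖exp (z * (t : ℂ))‖ * |t| * ‖K t‖
          = |t| * (‖exp (z * (t : ℂ))‖ * ‖K t‖) := by ring
        _ ≤ Real.exp (r * |t|) / r * (C * Real.exp (-((Real.pi - |z.re|) * |t|))) :=
            mul_le_mul h3 h2 (by positivity) (by positivity)
        _ ≤ Real.exp (r * |t|) / r * (C * Real.exp (-(2 * r * |t|))) := by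
            have h4 : 2 * r ≤ Real.pi - |z.re| := by rw [hr] at hz' ⊢; linarith
            refine mul_le_mul_of_nonneg_left (mul_le_mul_of_nonneg_left (Real.exp_le_exp.2 ?_) hC)
              (by positivity)
            nlinarith [abs_nonneg t]
        _ = C / r * Real.exp (-(r * |t|)) := by
            rw [show -(r * |t|) = r * |t| + -(2 * r * |t|) by ring, Real.exp_add]; ring
    · refine Eventually.of_forall fun t z _ => ?_
      have := (((hasDerivAt_id z).mul_const (t : ℂ)).cexp).mul_const (K t)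
      simpa using this
  have hpre : IsPreconnected U :=
    ((convex_Ioo _ _).linear_preimage reLm).isPreconnected
  have h0 : Set.EqOn L 0 U := by
    refine (hd.analyticOnNhd hUo).eqOn_zero_of_preconnected_of_frequently_eq_zero hpre
      (z₀ := 0) (by simp [hU, Real.pi_pos]) ?_
    have ht : Tendsto (fun θ : ℝ => (θ : ℂ)) (𝓝[≠] 0) (𝓝[≠] 0) :=
      tendsto_nhdsWithin_of_tendsto_nhds_of_eventually_within _
        ((continuous_ofReal.tendsto' 0 0 ofReal_zero).mono_left nhdsWithin_le_nhds)
        (eventually_mem_nhdsWithin.mono fun θ hθ => ofReal_ne_zero.2 hθ)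
    refine ht.frequently (Eventually.frequently ?_)
    filter_upwards [nhdsWithin_le_nhds (Metric.ball_mem_nhds (0 : ℝ) Real.pi_pos)] with θ hθ
    exact h θ (by simpa using hθ)
  have hint : Integrable K := ((integrable_exp_abs Real.pi_pos).const_mul C).mono'
    hK.aestronglyMeasurable (Eventually.of_forall hb)
  have hF : 𝓕 K = 0 := by
    ext x
    rw [Real.fourier_real_eq_integral_exp_smul, Pi.zero_apply]
    refine Eq.trans ?_ (h0 (show ((-2 * Real.pi * x : ℝ) : ℂ) * I ∈ U by simp [hU, Real.pi_pos]))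
    refine integral_congr_ae (Eventually.of_forall fun t => ?_)
    simp only [smul_eq_mul]
    congr 2
    push_cast; ring
  have hinv := hK.fourierInv_fourier_eq hint (by rw [hF]; exact integrable_zero _ _ _)
  rw [hF] at hinv
  rw [← hinv]
  ext x
  simp [Real.fourierInv_eq_fourier_neg, Real.fourier_real_eq_integral_exp_smul]

end Vale.Agent.P132.Tomita
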