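import Vale.Agent.P132.Iface

/-!
# The graph projection of a pair of vectors in duality
-/

namespace Vale.Agent.P132.Tomita

open scoped InnerProductSpace Topology ComplexOrder
open Filter

universe u

variable {H : Type u} [NormedAddCommGroup H] [InnerProductSpace ℂ H] [CompleteSpace H]

/-- Operators commuting with the commutant belong to the algebra. -/
theorem mem_of_commute (M : VonNeumannAlgebra H) {x : H →L[ℂ] H}
    (h : ∀ b ∈ M.commutant, b * x = x * b) : x ∈ M := by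
  rw [← VonNeumannAlgebra.commutant_commutant M, VonNeumannAlgebra.mem_commutant_iff]
  exact h

/-- The bounded inverse of `A + e`. -/
noncomputable def res (A : H →L[ℂ] H) (e : ℝ) : H →L[ℂ] H :=
  cfc (fun s : ℝ => (max s 0 + e)⁻¹) A

theorem res_spec {A : H →L[ℂ] H} (hA : 0 ≤ A) {e : ℝ} (he : 0 < e) :
    res A e * (A + (e : ℂ) • (1 : H →L[ℂ] H)) = 1 ∧
      (A + (e : ℂ) • (1 : H →L[ℂ] H)) * res A e = 1 ∧
      ‖res A e * A‖ ≤ 1 ∧ ‖(e : ℂ) • res A e‖ ≤ 1 := by
  have hsa : IsSelfAdjoint A := hA.isSelfAdjoint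
  have hpos : ∀ s : ℝ, 0 < max s 0 + e := fun s => by linarith [le_max_right s 0]
  have hc : Continuous fun s : ℝ => (max s 0 + e)⁻¹ :=
    Continuous.inv₀ (by fun_prop) fun s => (hpos s).ne'
  have hadd : A + (e : ℂ) • (1 : H →L[ℂ] H) = cfc (fun s : ℝ => s + e) A := by
    rw [cfc_add_const e (fun s : ℝ => s) A, cfc_id' ℝ A, Algebra.algebraMap_eq_smul_one,
      Complex.coe_smul]
  have hsp : ∀ s ∈ spectrum ℝ A, max s 0 = s := fun s hs =>
    max_eq_left (spectrum_nonneg_of_nonneg hA hs)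
  refine ⟨?_, ?_, ?_, ?_⟩
  · rw [res, hadd, ← cfc_mul _ _ A hc.continuousOn (by fun_prop), ← cfc_const_one ℝ A]
    refine cfc_congr fun s hs => ?_
    have := hpos s
    rw [hsp s hs] at this ⊢
    exact inv_mul_cancel₀ this.ne'
  · rw [res, hadd, ← cfc_mul _ _ A (by fun_prop) hc.continuousOn, ← cfc_const_one ℝ A]
    refine cfc_congr fun s hs => ?_
    have := hpos s
    rw [hsp s hs] at this ⊢
    exact mul_inv_cancel₀ this.ne'
  · rw [res]
    conv_lhs => enter [1, 2]; rw [← cfc_id' ℝ A]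
    rw [← cfc_mul _ _ A hc.continuousOn (by fun_prop)]
    refine norm_cfc_le zero_le_one fun s hs => ?_
    have := hpos s
    rw [hsp s hs] at this ⊢
    have h0 : 0 ≤ s := spectrum_nonneg_of_nonneg hA hs
    rw [Real.norm_of_nonneg (by positivity), inv_mul_le_one₀ this]
    linarith
  · rw [res, Complex.coe_smul, ← cfc_smul e _ A hc.continuousOn]
    refine norm_cfc_le zero_le_one fun s _ => ?_
    have := hpos s
    rw [smul_eq_mul, Real.norm_of_nonneg (by positivity), ← div_eq_mul_inv, div_le_one this]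
    linarith [le_max_right s 0]

theorem res_commute {A : H →L[ℂ] H} {b : H →L[ℂ] H} (h : b * A = A * b) (e : ℝ) :
    b * res A e = res A e * b :=
  ((show Commute A b from h.symm).cfc_real _).eq.symm

/-- Regularised inverses act as the identity in the limit. -/
theorem tendsto_res {A : H →L[ℂ] H} (hA : 0 ≤ A) (hinj : ∀ v, A v = 0 → v = 0) (v : H) :
    Tendsto (fun n : ℕ => res A (1 / ((n : ℝ) + 1)) (A v)) atTop (𝓝 v) := by
  have hpos : ∀ n : ℕ, (0 : ℝ) < 1 / ((n : ℝ) + 1) := fun n => by positivity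
  have hd : (LinearMap.range A.toLinearMap).topologicalClosure = ⊤ := by
    rw [Submodule.topologicalClosure_eq_top_iff, Submodule.eq_bot_iff]
    intro w hw
    refine hinj w ((inner_self_eq_zero (𝕜 := ℂ)).1 ?_ : A w = 0)
    have := hw (A (A w)) ⟨A w, rfl⟩
    rwa [← hA.isSelfAdjoint.star_eq, ContinuousLinearMap.star_eq_adjoint,
      ContinuousLinearMap.adjoint_inner_left, ← ContinuousLinearMap.star_eq_adjoint,
      hA.isSelfAdjoint.star_eq] at this
  have key : ∀ (n : ℕ) (w : H), res A (1 / ((n : ℝ) + 1)) (A w) - w =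
      -(((1 / ((n : ℝ) + 1) : ℝ) : ℂ) • res A (1 / ((n : ℝ) + 1)) w) := by
    intro n w
    have h := congrArg (fun f : H →L[ℂ] H => f w) (res_spec hA (hpos n)).1
    simp only [mul_apply_eq_comp, add_apply, map_add, smul_apply, one_apply_eq_self, map_smul] at h
    linear_combination (norm := module) h
  rw [Metric.tendsto_nhds]
  intro ε hε
  have hv : v ∈ closure (LinearMap.range A.toLinearMap : Set H) := by
    rw [← Submodule.topologicalClosure_coe, hd]; trivial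
  obtain ⟨_, ⟨w, rfl⟩, hw⟩ := Metric.mem_closure_iff.1 hv (ε / 2) (half_pos hε)
  filter_upwards [((tendsto_one_div_add_atTop_nhds_zero_nat (𝕜 := ℝ)).mul_const ‖w‖).eventually
    (Iio_mem_nhds (by simpa using half_pos hε : (0 : ℝ) * ‖w‖ < ε / 2))] with n hn
  rw [dist_eq_norm, key, norm_neg]
  set e : ℝ := 1 / ((n : ℝ) + 1)
  obtain ⟨-, -, h1, h2⟩ := res_spec hA (hpos n)
  rw [dist_eq_norm] at hw
  calc ‖(e : ℂ) • res A e v‖
      = ‖((e : ℂ) • res A e) (v - A w) + (e : ℂ) • (res A e * A) w‖ := by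
        simp [mul_apply_eq_comp, smul_sub]
    _ ≤ 1 * ‖v - A w‖ + e * (1 * ‖w‖) := by
        refine (norm_add_le _ _).trans (add_le_add (ContinuousLinearMap.le_of_opNorm_le _ h2 _) ?_)
        rw [norm_smul, Complex.norm_real, Real.norm_of_nonneg (hpos n).le]
        exact mul_le_mul_of_nonneg_left (ContinuousLinearMap.le_of_opNorm_le _ h1 _) (hpos n).le
    _ < ε := by
        have hw' : ‖v - A w‖ < ε / 2 := hw
        linarith

/-- The two copies of `H`. -/
abbrev Two (H : Type u) := WithLp 2 (H × H)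

/-- The first and second inclusions and projections. -/
noncomputable def inj₁ : H →L[ℂ] Two H :=
  (WithLp.prodContinuousLinearEquiv 2 ℂ H H).symm.toContinuousLinearMap ∘L
    ContinuousLinearMap.inl ℂ H H

/-- The second inclusion. -/
noncomputable def inj₂ : H →L[ℂ] Two H :=
  (WithLp.prodContinuousLinearEquiv 2 ℂ H H).symm.toContinuousLinearMap ∘L
    ContinuousLinearMap.inr ℂ H H

/-- The first projection. -/
noncomputable def pr₁ : Two H →L[ℂ] H :=
  ContinuousLinearMap.fst ℂ H H ∘L (WithLp.prodContinuousLinearEquiv 2 ℂ H H).toContinuousLinearMap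

/-- The second projection. -/
noncomputable def pr₂ : Two H →L[ℂ] H :=
  ContinuousLinearMap.snd ℂ H H ∘L (WithLp.prodContinuousLinearEquiv 2 ℂ H H).toContinuousLinearMap

omit [CompleteSpace H] in
theorem inner_two (v w : Two H) : ⟪v, w⟫_ℂ = ⟪pr₁ v, pr₁ w⟫_ℂ + ⟪pr₂ v, pr₂ w⟫_ℂ := rfl

omit [CompleteSpace H] in
theorem two_eq (v : Two H) : v = inj₁ (pr₁ v) + inj₂ (pr₂ v) := by
  apply WithLp.ofLp_injective 2
  ext <;> simp [inj₁, inj₂, pr₁, pr₂]

omit [CompleteSpace H] in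
theorem two_ext {v w : Two H} (h1 : pr₁ v = pr₁ w) (h2 : pr₂ v = pr₂ w) : v = w := by
  rw [two_eq v, two_eq w, h1, h2]

omit [CompleteSpace H] in
theorem pr₁_inj₁ (v : H) : pr₁ (inj₁ v) = v := rfl
omit [CompleteSpace H] in
theorem pr₂_inj₁ (v : H) : pr₂ (inj₁ v) = 0 := rfl
omit [CompleteSpace H] in
theorem pr₁_inj₂ (v : H) : pr₁ (inj₂ v) = 0 := rfl
omit [CompleteSpace H] in
theorem pr₂_inj₂ (v : H) : pr₂ (inj₂ v) = v := rfl

/-- A pair in duality with respect to the commutant is approximated from the algebra. -/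
theorem graph_max (M : VonNeumannAlgebra H) {ζ η θ : H}
    (hcyc : ∀ v, (∀ a ∈ M.commutant, ⟪a ζ, v⟫_ℂ = 0) → v = 0)
    (h : ∀ a ∈ M.commutant, ⟪η, a ζ⟫_ℂ = ⟪star a ζ, θ⟫_ℂ) {e : ℝ} (he : 0 < e) :
    ∃ z ∈ M, ‖z ζ - η‖ ≤ e ∧ ‖star z ζ - θ‖ ≤ e := by
  have hadj : ∀ (a : H →L[ℂ] H) (v w : H), ⟪star a v, w⟫_ℂ = ⟪v, a w⟫_ℂ := by
    intro a v w
    rw [ContinuousLinearMap.star_eq_adjoint, ContinuousLinearMap.adjoint_inner_left]
  let S : Submodule ℂ (Two H) :=
    { carrier := {v | ∃ a ∈ M.commutant, inj₁ (a ζ) + inj₂ (a η) = v}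
      add_mem' := by
        rintro _ _ ⟨a, ha, rfl⟩ ⟨b, hb, rfl⟩
        exact ⟨a + b, add_mem ha hb, by simp only [add_apply, map_add]; abel⟩
      zero_mem' := ⟨0, zero_mem _, by simp⟩
      smul_mem' := by
        rintro c _ ⟨a, ha, rfl⟩
        exact ⟨c • a, M.commutant.toStarSubalgebra.smul_mem ha c, by simp [smul_add]⟩ }
  set G := S.topologicalClosure with hG
  set P := G.starProjection with hP
  have hP1 : ∀ {v}, v ∈ G → P v = v := fun hv => Submodule.starProjection_eq_self_iff.2 hv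
  have hP0 : ∀ {v}, (∀ a ∈ M.commutant, ⟪inj₁ (a ζ) + inj₂ (a η), v⟫_ℂ = 0) → P v = 0 := by
    intro v hv
    refine Submodule.eq_starProjection_of_mem_of_inner_eq_zero G.zero_mem fun w hw => ?_
    rw [sub_zero, ← inner_eq_zero_symm]
    refine closure_minimal (t := {u : Two H | ⟪u, v⟫_ℂ = 0}) ?_
      (isClosed_eq (by fun_prop) continuous_const) hw
    rintro _ ⟨a, ha, rfl⟩
    exact hv a ha
  have hsym : ∀ v w : Two H, ⟪P v, w⟫_ℂ = ⟪v, P w⟫_ℂ := G.inner_starProjection_left_eq_right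
  have hidem : ∀ v, P (P v) = P v := fun v => hP1 (Submodule.starProjection_apply_mem G v)
  have hgen : inj₁ ζ + inj₂ η ∈ G := Submodule.le_topologicalClosure _ ⟨1, one_mem _, by simp⟩
  let a11 : H →L[ℂ] H := pr₁ ∘L P ∘L inj₁
  let a12 : H →L[ℂ] H := pr₁ ∘L P ∘L inj₂
  let a21 : H →L[ℂ] H := pr₂ ∘L P ∘L inj₁
  let a22 : H →L[ℂ] H := pr₂ ∘L P ∘L inj₂
  have hin1 : ∀ (v : H) (w : Two H), ⟪inj₁ v, w⟫_ℂ = ⟪v, pr₁ w⟫_ℂ := fun v w => by
    rw [inner_two, pr₁_inj₁, pr₂_inj₁, inner_zero_left, add_zero]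
  have hin2 : ∀ (v : H) (w : Two H), ⟪inj₂ v, w⟫_ℂ = ⟪v, pr₂ w⟫_ℂ := fun v w => by
    rw [inner_two, pr₁_inj₂, pr₂_inj₂, inner_zero_left, zero_add]
  have hpr1 : ∀ (v : H) (w : Two H), ⟪pr₁ w, v⟫_ℂ = ⟪w, inj₁ v⟫_ℂ := fun v w => by
    rw [← inner_conj_symm, ← hin1, inner_conj_symm]
  have hpr2 : ∀ (v : H) (w : Two H), ⟪pr₂ w, v⟫_ℂ = ⟪w, inj₂ v⟫_ℂ := fun v w => by
    rw [← inner_conj_symm, ← hin2, inner_conj_symm]
  have hs21 : star a21 = a12 := by
    rw [ContinuousLinearMap.star_eq_adjoint, eq_comm, ContinuousLinearMap.eq_adjoint_iff]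
    intro v w
    show ⟪pr₁ (P (inj₂ v)), w⟫_ℂ = ⟪v, pr₂ (P (inj₁ w))⟫_ℂ
    rw [hpr1, hsym, hin2]
  have hs11 : IsSelfAdjoint a11 := by
    rw [IsSelfAdjoint, ContinuousLinearMap.star_eq_adjoint, eq_comm,
      ContinuousLinearMap.eq_adjoint_iff]
    intro v w
    show ⟪pr₁ (P (inj₁ v)), w⟫_ℂ = ⟪v, pr₁ (P (inj₁ w))⟫_ℂ
    rw [hpr1, hsym, hin1]
  have hs22 : IsSelfAdjoint a22 := by
    rw [IsSelfAdjoint, ContinuousLinearMap.star_eq_adjoint, eq_comm,
      ContinuousLinearMap.eq_adjoint_iff]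
    intro v w
    show ⟪pr₂ (P (inj₂ v)), w⟫_ℂ = ⟪v, pr₂ (P (inj₂ w))⟫_ℂ
    rw [hpr2, hsym, hin2]
  have hq : ∀ w, ⟪w, P w⟫_ℂ = ((‖P w‖ ^ 2 : ℝ) : ℂ) := by
    intro w
    rw [← hidem w, ← hsym, hidem, inner_self_eq_norm_sq_to_K]
    norm_cast
  have h11pos : 0 ≤ a11 := by
    rw [ContinuousLinearMap.nonneg_iff_isPositive, ContinuousLinearMap.isPositive_def']
    refine ⟨hs11, fun v => ?_⟩
    show 0 ≤ (⟪pr₁ (P (inj₁ v)), v⟫_ℂ).re
    rw [hpr1, hsym, hq, Complex.ofReal_re]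
    positivity
  have h22pos : 0 ≤ 1 - a22 := by
    rw [ContinuousLinearMap.nonneg_iff_isPositive, ContinuousLinearMap.isPositive_def']
    refine ⟨(IsSelfAdjoint.one _).sub hs22, fun v => ?_⟩
    show 0 ≤ (⟪v - pr₂ (P (inj₂ v)), v⟫_ℂ).re
    have h1 : ‖inj₂ v‖ ^ 2 = ‖v‖ ^ 2 := by
      rw [← inner_self_eq_norm_sq (𝕜 := ℂ), ← inner_self_eq_norm_sq (𝕜 := ℂ), hin2, pr₂_inj₂]
    rw [inner_sub_left, hpr2, hsym, hq, Complex.sub_re, Complex.ofReal_re,
      ← RCLike.re_eq_complex_re, inner_self_eq_norm_sq, ← h1, sub_nonneg]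
    exact pow_le_pow_left₀ (norm_nonneg _) (G.norm_starProjection_apply_le _) 2
  have hinj : ∀ v, a11 v = 0 → v = 0 := by
    intro v hv
    have h0 : P (inj₁ v) = 0 := by
      have := hq (inj₁ v)
      rw [hin1, show pr₁ (P (inj₁ v)) = 0 from hv, inner_zero_right] at this
      simpa using this.symm
    refine hcyc v fun a ha => ?_
    have h1 := hsym (inj₁ (a ζ) + inj₂ (a η)) (inj₁ v)
    rw [hP1 (Submodule.le_topologicalClosure _ ⟨a, ha, rfl⟩), h0, inner_zero_right,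
      inner_add_left, hin1, hin2, pr₁_inj₁, pr₂_inj₁, inner_zero_right, add_zero] at h1
    exact h1
  have hinj2 : ∀ v, (1 - a22) v = 0 → v = 0 := by
    intro v hv
    have hv' : pr₂ (P (inj₂ v)) = v := (sub_eq_zero.1 hv).symm
    have h0 : P (inj₂ v) = inj₂ v := by
      have h2 := hq (inj₂ v)
      rw [hin2, hv', inner_self_eq_norm_sq_to_K] at h2
      have h3 : ‖v‖ ^ 2 = ‖P (inj₂ v)‖ ^ 2 := by
        have := congrArg Complex.re h2
        simpa [← Complex.ofReal_pow] using this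
      refine two_ext ?_ (by rw [hv', pr₂_inj₂])
      rw [pr₁_inj₂]
      have h4 : ‖P (inj₂ v)‖ ^ 2 = ‖pr₁ (P (inj₂ v))‖ ^ 2 + ‖v‖ ^ 2 := by
        rw [← inner_self_eq_norm_sq (𝕜 := ℂ), inner_two, hv', map_add, inner_self_eq_norm_sq,
          inner_self_eq_norm_sq]
      exact norm_eq_zero.1 (pow_eq_zero_iff two_ne_zero |>.1 (by linarith))
    refine hcyc v fun a ha => ?_
    have hmem : inj₂ v ∈ G := by rw [← h0]; exact Submodule.starProjection_apply_mem G _
    refine closure_minimal (t := {u : Two H | ⟪a ζ, pr₂ u⟫_ℂ = ⟪a θ, pr₁ u⟫_ℂ}) ?_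
      (isClosed_eq (by fun_prop) (by fun_prop)) hmem |>.trans ?_
    · rintro _ ⟨b, hb, rfl⟩
      show ⟪a ζ, pr₂ (inj₁ (b ζ) + inj₂ (b η))⟫_ℂ = ⟪a θ, pr₁ (inj₁ (b ζ) + inj₂ (b η))⟫_ℂ
      simp only [map_add, pr₁_inj₁, pr₁_inj₂, pr₂_inj₁, pr₂_inj₂, zero_add, add_zero]
      rw [← hadj b, ← inner_conj_symm, ← mul_apply_eq_comp,
        h (star b * a) (mul_mem (star_mem hb) ha), inner_conj_symm, star_mul, star_star,
        mul_apply_eq_comp, ← hadj (star a), star_star]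
    · rw [pr₁_inj₂, inner_zero_right]
  have hPθ : P (inj₁ (-θ) + inj₂ ζ) = 0 := by
    refine hP0 fun a ha => ?_
    rw [inner_add_left, hin1, hin2]
    simp only [map_add, pr₁_inj₁, pr₁_inj₂, pr₂_inj₁, pr₂_inj₂, zero_add, add_zero]
    have h' := h (star a) (star_mem ha)
    rw [star_star, ← hadj (star a) η, star_star] at h'
    rw [inner_neg_right, ← h', neg_add_cancel]
  have hcomm : ∀ a ∈ M.commutant, a * a11 = a11 * a ∧ a * a21 = a21 * a := by
    intro a ha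
    let A : Two H →L[ℂ] Two H := inj₁ ∘L a ∘L pr₁ + inj₂ ∘L a ∘L pr₂
    have hA1 : ∀ v, A (inj₁ v) = inj₁ (a v) := fun v => by
      simp [A, pr₁_inj₁, pr₂_inj₁]
    have hA : ∀ b : H →L[ℂ] H, b ∈ M.commutant → ∀ v ∈ G,
        inj₁ (b (pr₁ v)) + inj₂ (b (pr₂ v)) ∈ G := by
      intro b hb v hv
      refine map_mem_closure (f := fun v => inj₁ (b (pr₁ v)) + inj₂ (b (pr₂ v)))
        (by fun_prop) hv ?_
      rintro _ ⟨c, hc, rfl⟩
      exact ⟨b * c, mul_mem hb hc, by simp [pr₁_inj₁, pr₁_inj₂, pr₂_inj₁, pr₂_inj₂]⟩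
    have hAP : ∀ v, A (P v) = P (A v) := by
      intro v
      refine (Submodule.eq_starProjection_of_mem_of_inner_eq_zero
        (hA a ha _ (Submodule.starProjection_apply_mem G v)) fun w hw => ?_).symm
      change ⟪A v - A (P v), w⟫_ℂ = 0
      rw [← map_sub]
      have h' := G.starProjection_inner_eq_zero v _ (hA (star a) (star_mem ha) w hw)
      rw [inner_add_right, ← hpr1, ← hpr2] at h'
      rw [show A (v - P v) = inj₁ (a (pr₁ (v - P v))) + inj₂ (a (pr₂ (v - P v))) from rfl,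
        inner_add_left, hin1, hin2, ← star_star a, hadj, hadj]
      exact h'
    constructor
    all_goals ext v
    · show a (pr₁ (P (inj₁ v))) = pr₁ (P (inj₁ (a v)))
      rw [← hA1, ← hAP]
      simp [A, pr₁_inj₁, pr₁_inj₂]
    · show a (pr₂ (P (inj₁ v))) = pr₂ (P (inj₁ (a v)))
      rw [← hA1, ← hAP]
      simp [A, pr₂_inj₁, pr₂_inj₂]
  have e21 : pr₂ (P (inj₁ ζ + inj₂ η)) = η := by
    rw [hP1 hgen, map_add, pr₂_inj₁, pr₂_inj₂, zero_add]
  have e21' : a21 ζ = (1 - a22) η := by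
    rw [map_add, map_add] at e21
    show pr₂ (P (inj₁ ζ)) = η - pr₂ (P (inj₂ η))
    exact eq_sub_of_add_eq e21
  have e12 : a12 ζ = a11 θ := by
    have := congrArg pr₁ hPθ
    rw [map_add, map_add, map_neg, map_neg, map_neg, map_zero, neg_add_eq_zero] at this
    exact this.symm
  have eint : (1 - a22) * a21 = a21 * a11 := by
    ext v
    show pr₂ (P (inj₁ v)) - pr₂ (P (inj₂ (pr₂ (P (inj₁ v))))) =
      pr₂ (P (inj₁ (pr₁ (P (inj₁ v)))))
    have := congrArg pr₂ (hidem (inj₁ v))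
    conv_lhs at this => rw [two_eq (P (inj₁ v)), map_add, map_add]
    exact (eq_sub_of_add_eq this).symm
  have h1 := tendsto_res h22pos hinj2 η
  have h2 := tendsto_res h11pos hinj θ
  obtain ⟨n, hn1, hn2⟩ := ((h1.eventually (Metric.closedBall_mem_nhds _ he)).and
    (h2.eventually (Metric.closedBall_mem_nhds _ he))).exists
  set r : ℝ := 1 / ((n : ℝ) + 1)
  have hr : 0 < r := by positivity
  obtain ⟨hl, hl', -, -⟩ := res_spec h11pos hr
  obtain ⟨hk, hk', -, -⟩ := res_spec h22pos hr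
  have hint : a21 * res a11 r = res (1 - a22) r * a21 := by
    calc a21 * res a11 r
        = res (1 - a22) r * ((1 - a22) * a21 + (r : ℂ) • a21) * res a11 r := by
          rw [show (1 - a22) * a21 + (r : ℂ) • a21 = (1 - a22 + (r : ℂ) • 1) * a21 by
            rw [add_mul (1 - a22), smul_mul_assoc, one_mul], ← mul_assoc, hk, one_mul]
      _ = res (1 - a22) r * (a21 * (a11 + (r : ℂ) • 1) * res a11 r) := by
          rw [eint, mul_assoc, mul_add a21, mul_smul_comm, mul_one]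
      _ = _ := by rw [mul_assoc a21, hl', mul_one]
  refine ⟨a21 * res a11 r, mem_of_commute M fun a ha => ?_, ?_, ?_⟩
  · rw [← mul_assoc, (hcomm a ha).2, mul_assoc, res_commute (hcomm a ha).1, ← mul_assoc]
  · rw [hint, mul_apply_eq_comp, e21', ← dist_eq_norm]
    exact hn1
  · have hs : star (res a11 r) = res a11 r := (cfc_predicate _ a11 : IsSelfAdjoint _).star_eq
    rw [star_mul, hs, hs21, mul_apply_eq_comp, e12, ← dist_eq_norm]
    exact hn2

end Vale.Agent.P132.Tomita
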