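import Vale.Agent.P132.Tomita.Shift
import Vale.Agent.P132.Tomita.Graph
import Vale.Agent.P132.Tomita.Strip

/-!
# The contour argument
-/

namespace Vale.Agent.P132.Tomita

open scoped InnerProductSpace Topology ComplexOrder ComplexConjugate
open Filter MeasureTheory Complex

universe u v

variable {H : Type u} [NormedAddCommGroup H] [InnerProductSpace ℂ H] [CompleteSpace H]
  {R : H →L[ℂ] H} {U : ℝ → H →L[ℂ] H}

/-- `log ((2 - r) / r)` with both logarithms cut off below `d / 2`. -/
noncomputable def hcut (d r : ℝ) : ℝ := Real.log (max (2 - r) (d / 2)) - Real.log (max r (d / 2))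

/-- `((2 - r) / r)^(i z)`, cut off. -/
noncomputable def efun (d : ℝ) (z : ℂ) (r : ℝ) : ℂ := exp (I * z * (hcut d r : ℂ))

/-- A function vanishing near both ends of the interval. -/
structure Band (d : ℝ) (f : ℝ → ℂ) : Prop where
  pos : 0 < d
  cont : Continuous f
  zero : ∀ r, r * (2 - r) ≤ d → f r = 0

/-- The cutoffs. -/
noncomputable def chi (n : ℕ) (r : ℝ) : ℝ :=
  max 0 (min 1 (((n : ℝ) + 3) * (r * (2 - r)) - 1))

theorem chi_band (n : ℕ) : Band (1 / ((n : ℝ) + 3)) fun r => (chi n r : ℂ) := by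
  refine ⟨by positivity, by unfold chi; fun_prop, fun r hr => ?_⟩
  rw [le_div_iff₀ (by positivity)] at hr
  have h1 : ((n : ℝ) + 3) * (r * (2 - r)) - 1 ≤ 0 := by linarith
  rw [chi, max_eq_left ((min_le_right _ _).trans h1), ofReal_zero]

theorem norm_chi_le (n : ℕ) (r : ℝ) : ‖(chi n r : ℂ)‖ ≤ 1 := by
  have h0 : 0 ≤ chi n r := le_max_left _ _
  rw [Complex.norm_real, Real.norm_of_nonneg h0]
  exact max_le zero_le_one (min_le_left _ _)

theorem continuous_hcut {d : ℝ} (hd : 0 < d) : Continuous (hcut d) :=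
  ((continuous_const.sub continuous_id).max continuous_const).log
    (fun r => (lt_max_of_lt_right (half_pos hd)).ne') |>.sub
    ((continuous_id.max continuous_const).log fun r => (lt_max_of_lt_right (half_pos hd)).ne')

theorem continuous_efun {d : ℝ} (hd : 0 < d) (z : ℂ) : Continuous (efun d z) := by
  have := continuous_hcut hd
  unfold efun; fun_prop

theorem of_band {d r : ℝ} (hd : 0 < d) (hr : d < r * (2 - r)) :
    0 < r ∧ r < 2 ∧ hcut d r = lfun r := by
  have h0 : 0 < r := by nlinarith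
  have h2 : r < 2 := by nlinarith
  have e1 : d / 2 ≤ 2 - r := by nlinarith
  have e2 : d / 2 ≤ r := by nlinarith
  refine ⟨h0, h2, ?_⟩
  rw [hcut, lfun, max_eq_left e1, max_eq_left e2, Real.log_div (by linarith) h0.ne']

theorem exp_half_lfun {r : ℝ} (h0 : 0 < r) (h2 : r < 2) :
    Real.exp (lfun r / 2) * √(r * (2 - r)) = 2 - r ∧
      Real.exp (-lfun r / 2) * √(r * (2 - r)) = r := by
  have h2' : 0 < 2 - r := by linarith
  have hq : 0 < (2 - r) / r := div_pos h2' h0
  rw [lfun, Real.exp_half, Real.exp_half, Real.exp_neg, Real.exp_log hq,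
    ← Real.sqrt_mul hq.le, ← Real.sqrt_mul (inv_pos.2 hq).le,
    show (2 - r) / r * (r * (2 - r)) = (2 - r) ^ 2 by field_simp,
    show ((2 - r) / r)⁻¹ * (r * (2 - r)) = r ^ 2 by field_simp,
    Real.sqrt_sq h2'.le, Real.sqrt_sq h0.le]
  exact ⟨rfl, rfl⟩

namespace ModPair

set_option linter.unusedSectionVars false

variable (h : ModPair R U)
include h

theorem re_spec {z : ℂ} (hz : z ∈ spectrum ℂ R) : z = z.re ∧ z.re ∈ Set.Icc (0 : ℝ) 2 := by
  have e : z = z.re := h.sa.mem_spectrum_eq_re hz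
  refine ⟨e, h.spec ?_⟩
  rw [← spectrum.algebraMap_mem_iff ℂ]
  simpa [← e] using hz

theorem normal : IsStarNormal R := h.sa.isStarNormal

theorem cf_congr {φ ψ : ℝ → ℂ} (e : ∀ r ∈ Set.Icc (0 : ℝ) 2, φ r = ψ r) : cf R φ = cf R ψ :=
  cfc_congr fun _ hz => e _ (h.re_spec hz).2

theorem cf_mul {φ ψ : ℝ → ℂ} (hφ : Continuous φ) (hψ : Continuous ψ) :
    cf R (fun r => φ r * ψ r) = cf R φ * cf R ψ :=
  cfc_mul _ _ R (hφ.comp continuous_re).continuousOn (hψ.comp continuous_re).continuousOn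

theorem cf_comm (φ ψ : ℝ → ℂ) : cf R φ * cf R ψ = cf R ψ * cf R φ :=
  (cfc_commute_cfc _ _ R).eq

theorem cf_star (φ : ℝ → ℂ) : star (cf R φ) = cf R fun r => conj (φ r) :=
  (cfc_star _ R).symm

theorem cf_real (φ : ℝ → ℝ) : star (cf R fun r => (φ r : ℂ)) = cf R fun r => (φ r : ℂ) := by
  rw [h.cf_star]; simp

theorem cf_id : cf R (fun r => (r : ℂ)) = R := by
  have := h.normal
  conv_rhs => rw [← cfc_id' ℂ R]
  exact cfc_congr fun z hz => (h.re_spec hz).1.symm

theorem cf_two_sub : cf R (fun r => ((2 - r : ℝ) : ℂ)) = (2 : ℂ) • (1 : H →L[ℂ] H) - R := by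
  have := h.normal
  conv_rhs => rw [← cfc_id' ℂ R, ← cfc_one ℂ R, ← cfc_smul (2 : ℂ) (1 : ℂ → ℂ) R, ← cfc_sub _ _ R]
  refine cfc_congr fun z hz => ?_
  simp [← (h.re_spec hz).1]

theorem norm_cf_le {φ : ℝ → ℂ} {c : ℝ} (hc : 0 ≤ c) (hb : ∀ r ∈ Set.Icc (0 : ℝ) 2, ‖φ r‖ ≤ c) :
    ‖cf R φ‖ ≤ c :=
  norm_cfc_le hc fun _ hz => hb _ (h.re_spec hz).2

theorem U_cf (t : ℝ) (φ : ℝ → ℂ) : U t * cf R φ = cf R φ * U t := by
  have hc : Commute R (U t) := (h.U_comm t).symm
  exact (hc.cfc (by rwa [h.sa.star_eq]) _).eq.symm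

theorem norm_U (t : ℝ) (v : H) : ‖U t v‖ = ‖v‖ := by
  have e : star (U t) * U t = 1 := by rw [h.U_star, ← h.U_add, neg_add_cancel, h.U_zero]
  have e1 : ⟪U t v, U t v⟫_ℂ = ⟪v, v⟫_ℂ := by
    rw [← ContinuousLinearMap.adjoint_inner_right, ← ContinuousLinearMap.star_eq_adjoint,
      ← mul_apply_eq_comp, e, one_apply_eq_self]
  have e2 := congrArg re e1
  rw [← RCLike.re_eq_complex_re, inner_self_eq_norm_sq, inner_self_eq_norm_sq] at e2
  exact (pow_left_inj₀ (norm_nonneg _) (norm_nonneg _) two_ne_zero).1 e2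

variable {d : ℝ} {f : ℝ → ℂ} (hf : Band d f)
include hf

theorem U_band (t : ℝ) : U t * cf R f = cf R (efun d t) * cf R f := by
  set q : ℝ → ℂ := fun r => f r / ((max (r * (2 - r)) d : ℝ) : ℂ) with hq
  have hqc : Continuous q := hf.cont.div (by fun_prop)
    fun r => ofReal_ne_zero.2 (lt_max_of_lt_right hf.pos).ne'
  have hsplit : cf R f = cf R (fun r => ((r * (2 - r) : ℝ) : ℂ)) * cf R q := by
    rw [← h.cf_mul (by fun_prop) hqc]
    refine h.cf_congr fun r _ => ?_
    by_cases hr : r * (2 - r) ≤ d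
    · simp [hq, hf.zero r hr]
    · have h1 : 0 < r * (2 - r) := lt_trans hf.pos (not_le.1 hr)
      simp only [hq, max_eq_left (not_le.1 hr).le]
      field_simp
  conv_lhs => rw [hsplit, ← mul_assoc, h.U_spec, ← h.cf_mul (continuous_hfun t) hqc]
  rw [← h.cf_mul (continuous_efun hf.pos t) hf.cont]
  refine h.cf_congr fun r _ => ?_
  by_cases hr : r * (2 - r) ≤ d
  · simp [hq, hf.zero r hr]
  · obtain ⟨-, -, e⟩ := of_band hf.pos (not_le.1 hr)
    have h1 : ((r * (2 - r) : ℝ) : ℂ) ≠ 0 := ofReal_ne_zero.2 (lt_trans hf.pos (not_le.1 hr)).ne'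
    simp only [hq, hfun, efun, e, max_eq_left (not_le.1 hr).le]
    field_simp

theorem U_band_right (t : ℝ) : cf R f * U t = cf R f * cf R (efun d t) := by
  rw [← h.U_cf, h.U_band hf, h.cf_comm]

theorem band_split : ∃ Q : H →L[ℂ] H, cf R f = cf R tfun * Q ∧ cf R f = Q * cf R tfun ∧
    R * Q = cf R (efun d (I / 2)) * cf R f ∧ Q * R = cf R f * cf R (efun d (I / 2)) ∧
    ((2 : ℂ) • (1 : H →L[ℂ] H) - R) * Q = cf R (efun d (-(I / 2))) * cf R f ∧
    Q * ((2 : ℂ) • (1 : H →L[ℂ] H) - R) = cf R f * cf R (efun d (-(I / 2))) := by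
  set q : ℝ → ℂ := fun r => f r / ((√(max (r * (2 - r)) d) : ℝ) : ℂ) with hq
  have hqc : Continuous q := hf.cont.div (by fun_prop)
    fun r => ofReal_ne_zero.2 (Real.sqrt_pos.2 (lt_max_of_lt_right hf.pos)).ne'
  have key : ∀ (φ ψ : ℝ → ℂ), Continuous φ → Continuous ψ →
      (∀ r, 0 < r → r < 2 → d < r * (2 - r) → φ r = ψ r * ((√(r * (2 - r)) : ℝ) : ℂ)) →
      cf R φ * cf R q = cf R ψ * cf R f := by
    intro φ ψ hφ hψ e
    rw [← h.cf_mul hφ hqc, ← h.cf_mul hψ hf.cont]
    refine h.cf_congr fun r _ => ?_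
    by_cases hr : r * (2 - r) ≤ d
    · simp [hq, hf.zero r hr]
    · obtain ⟨h0, h2, -⟩ := of_band hf.pos (not_le.1 hr)
      have h1 : ((√(r * (2 - r)) : ℝ) : ℂ) ≠ 0 :=
        ofReal_ne_zero.2 (Real.sqrt_pos.2 (lt_trans hf.pos (not_le.1 hr))).ne'
      simp only [hq, max_eq_left (not_le.1 hr).le, e r h0 h2 (not_le.1 hr)]
      field_simp
  have k0 : cf R tfun * cf R q = cf R f := by
    rw [key tfun (fun _ => 1) continuous_tfun continuous_const fun r _ _ _ => by simp [tfun],
      ← h.cf_mul continuous_const hf.cont]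
    simp
  have k1 : R * cf R q = cf R (efun d (I / 2)) * cf R f := by
    conv_lhs => arg 1; rw [← h.cf_id]
    refine key _ _ (by fun_prop) (continuous_efun hf.pos _) fun r h0 h2 hr => ?_
    rw [efun, (of_band hf.pos hr).2.2,
      show I * (I / 2) * (lfun r : ℂ) = ((-lfun r / 2 : ℝ) : ℂ) by
        push_cast; linear_combination ((lfun r : ℂ) / 2) * I_sq,
      ← ofReal_exp, ← ofReal_mul, (exp_half_lfun h0 h2).2]
  have k2 : ((2 : ℂ) • (1 : H →L[ℂ] H) - R) * cf R q = cf R (efun d (-(I / 2))) * cf R f := by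
    rw [← h.cf_two_sub]
    refine key _ _ (by fun_prop) (continuous_efun hf.pos _) fun r h0 h2 hr => ?_
    rw [efun, (of_band hf.pos hr).2.2,
      show I * -(I / 2) * (lfun r : ℂ) = ((lfun r / 2 : ℝ) : ℂ) by
        push_cast; linear_combination (-(lfun r : ℂ) / 2) * I_sq,
      ← ofReal_exp, ← ofReal_mul, (exp_half_lfun h0 h2).1]
  refine ⟨cf R q, k0.symm, by rw [h.cf_comm, k0], k1, ?_, k2, ?_⟩
  · have e := h.cf_comm q fun r => (r : ℂ)
    rw [h.cf_id, k1] at e
    rw [e, h.cf_comm]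
  · have e := h.cf_comm q fun r => ((2 - r : ℝ) : ℂ)
    rw [h.cf_two_sub, k2] at e
    rw [e, h.cf_comm]

omit hf

theorem efun_exp (hd : 0 < d) (z : ℂ) :
    cf R (efun d z) = NormedSpace.exp (z • cf R (fun r => I * (hcut d r : ℂ))) := by
  have := h.normal
  have hc : Continuous fun w : ℂ => I * (hcut d w.re : ℂ) :=
    continuous_const.mul (continuous_ofReal.comp ((continuous_hcut hd).comp continuous_re))
  rw [cf, cf, ← cfc_smul z _ R hc.continuousOn, ← CFC.complex_exp_eq_normedSpace_exp,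
    ← cfc_comp' Complex.exp (fun w : ℂ => z • (I * (hcut d w.re : ℂ))) R
      Complex.continuous_exp.continuousOn (hc.const_smul z).continuousOn]
  refine cfc_congr fun w _ => ?_
  simp only [efun, smul_eq_mul]
  ring_nf

theorem differentiable_efun (hd : 0 < d) : Differentiable ℂ fun z => cf R (efun d z) := by
  simp only [h.efun_exp hd]
  exact differentiable_exp_smul_const (𝕂 := ℂ) _

theorem exists_bound (hd : 0 < d) :
    ∃ N : ℝ, 0 ≤ N ∧ ∀ z : ℂ, ‖cf R (efun d z)‖ ≤ Real.exp (N * |z.im|) := by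
  obtain ⟨N, hN⟩ := isCompact_Icc.exists_bound_of_continuousOn
    (continuous_hcut hd).continuousOn (s := Set.Icc (0 : ℝ) 2)
  refine ⟨max N 0, le_max_right _ _, fun z => h.norm_cf_le (Real.exp_pos _).le fun r hr => ?_⟩
  rw [efun, Complex.norm_exp, Real.exp_le_exp]
  have e : (I * z * (hcut d r : ℂ)).re = -(z.im * hcut d r) := by simp
  rw [e]
  have h1 := hN r hr
  rw [Real.norm_eq_abs] at h1
  calc -(z.im * hcut d r) ≤ |z.im * hcut d r| := neg_le_abs _
    _ ≤ max N 0 * |z.im| := by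
        rw [abs_mul, mul_comm (max N 0)]
        exact mul_le_mul_of_nonneg_left (h1.trans (le_max_left _ _)) (abs_nonneg _)

theorem continuous_pairing (c : H →L[ℂ] H) (v w : H) :
    Continuous fun t => ⟪v, U t (c (U (-t) w))⟫_ℂ := by
  have e : ∀ t, ⟪v, U t (c (U (-t) w))⟫_ℂ = ⟪U (-t) v, c (U (-t) w)⟫_ℂ := fun t => by
    rw [← h.U_star t, ContinuousLinearMap.star_eq_adjoint, ContinuousLinearMap.adjoint_inner_left]
  simp only [e]
  exact ((h.U_cont v).comp continuous_neg).inner
    (c.continuous.comp ((h.U_cont w).comp continuous_neg))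

theorem norm_pairing_le (c : H →L[ℂ] H) (t : ℝ) (v w : H) :
    ‖⟪v, U t (c (U (-t) w))⟫_ℂ‖ ≤ ‖v‖ * (‖c‖ * ‖w‖) := by
  refine (norm_inner_le_norm _ _).trans (mul_le_mul_of_nonneg_left ?_ (norm_nonneg _))
  rw [h.norm_U]
  exact (c.le_opNorm _).trans_eq (by rw [h.norm_U])

/-- The cutoff operators. -/
theorem tendsto_chi (v : H) :
    Tendsto (fun n => cf R (fun r => (chi n r : ℂ)) v) atTop (𝓝 v) := by
  have := h.normal
  set A : H →L[ℂ] H := cf R fun r => ((r * (2 - r) : ℝ) : ℂ) with hA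
  have hAsa : ∀ x y, ⟪A x, y⟫_ℂ = ⟪x, A y⟫_ℂ := fun x y => by
    conv_lhs => rw [hA, ← h.cf_real fun r => r * (2 - r), ContinuousLinearMap.star_eq_adjoint,
      ContinuousLinearMap.adjoint_inner_left]
  have hinj : ∀ y, A y = 0 → y = 0 := by
    intro y hy
    have e : A = R * ((2 : ℂ) • (1 : H →L[ℂ] H) - R) := by
      calc A = cf R (fun r => (r : ℂ)) * cf R (fun r => ((2 - r : ℝ) : ℂ)) := by
            rw [← h.cf_mul (by fun_prop) (by fun_prop), hA]
            exact h.cf_congr fun r _ => by push_cast; ring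
        _ = _ := by rw [h.cf_id, h.cf_two_sub]
    rw [e, mul_apply_eq_comp] at hy
    have h1 := h.inj _ hy
    rw [sub_apply, smul_apply, one_apply_eq_self, sub_eq_zero] at h1
    exact h.inj_two y h1.symm
  have hd : (LinearMap.range A.toLinearMap).topologicalClosure = ⊤ := by
    rw [Submodule.topologicalClosure_eq_top_iff, Submodule.eq_bot_iff]
    intro w hw
    refine hinj w ((inner_self_eq_zero (𝕜 := ℂ)).1 ?_)
    have := hw (A (A w)) ⟨A w, rfl⟩
    rwa [hAsa] at this
  rw [Metric.tendsto_nhds]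
  intro ε hε
  have hv : v ∈ closure (LinearMap.range A.toLinearMap : Set H) := by
    rw [← Submodule.topologicalClosure_coe, hd]; trivial
  obtain ⟨_, ⟨w, rfl⟩, hw⟩ := Metric.mem_closure_iff.1 hv (ε / 3) (by linarith)
  rw [dist_eq_norm] at hw
  filter_upwards [((tendsto_one_div_add_atTop_nhds_zero_nat (𝕜 := ℝ)).mul_const (2 * ‖w‖)).eventually
    (Iio_mem_nhds (show (0 : ℝ) * (2 * ‖w‖) < ε / 3 by simpa using show 0 < ε / 3 by linarith))]
    with n hn
  set P := cf R fun r => (chi n r : ℂ)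
  have hP : ‖P‖ ≤ 1 := h.norm_cf_le zero_le_one fun r _ => norm_chi_le n r
  have hPA : ‖P * A - A‖ ≤ 2 * (1 / ((n : ℝ) + 1)) := by
    have hc : Continuous fun r : ℝ => ((r * (2 - r) : ℝ) : ℂ) := by fun_prop
    rw [hA, ← h.cf_mul (chi_band n).cont hc, cf, cf,
      ← cfc_sub (fun z : ℂ => (chi n z.re : ℂ) * ((z.re * (2 - z.re) : ℝ) : ℂ))
        (fun z : ℂ => ((z.re * (2 - z.re) : ℝ) : ℂ)) R (((chi_band n).cont.mul hc).comp continuous_re).continuousOn
        (hc.comp continuous_re).continuousOn]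
    refine norm_cfc_le (by positivity) fun z hz => ?_
    obtain ⟨-, h0, h2⟩ := h.re_spec hz
    set r := z.re
    have hx : 0 ≤ r * (2 - r) := mul_nonneg h0 (by linarith)
    rw [← ofReal_mul, ← ofReal_sub, Complex.norm_real, Real.norm_eq_abs, mul_one_div,
      le_div_iff₀ (by positivity)]
    rcases le_total 2 (((n : ℝ) + 3) * (r * (2 - r))) with hb | hb
    · rw [chi, min_eq_left (by linarith), max_eq_right zero_le_one]
      simp
    · have c0 : 0 ≤ chi n r := le_max_left _ _
      have c1 : chi n r ≤ 1 := max_le zero_le_one (min_le_left _ _)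
      rw [abs_of_nonpos (by nlinarith)]
      nlinarith [mul_nonneg c0 hx]
  rw [dist_eq_norm]
  calc ‖P v - v‖ = ‖P (v - A w) + (P * A - A) w + (A w - v)‖ := by
        simp only [map_sub, sub_apply, mul_apply_eq_comp]; congr 1; abel
    _ ≤ ‖P (v - A w)‖ + ‖(P * A - A) w‖ + ‖A w - v‖ := norm_add₃_le
    _ ≤ 1 * ‖v - A w‖ + 2 * (1 / ((n : ℝ) + 1)) * ‖w‖ + ‖A w - v‖ := by
        gcongr
        · exact P.le_of_opNorm_le hP _
        · exact (P * A - A).le_of_opNorm_le hPA _
    _ < ε := by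
        rw [norm_sub_rev (A w)]
        have hw' : ‖v - A w‖ < ε / 3 := hw
        linarith

/-- The integral of the orbit recovers the element of the band equation. -/
theorem integral_orbit {c x : H →L[ℂ] H} {θ : ℝ} (hθ : |θ| < Real.pi)
    (he : ∀ v w, ⟪cf R tfun v, c (cf R tfun w)⟫_ℂ =
      exp (I * θ / 2) * ⟪R v, x ((2 : ℂ) • w - R w)⟫_ℂ +
        conj (exp (I * θ / 2)) * ⟪(2 : ℂ) • v - R v, x (R w)⟫_ℂ) (v w : H) :
    ∫ t : ℝ, exp ((θ : ℂ) * (t : ℂ)) * ⟪v, U t (c (U (-t) w))⟫_ℂ / (den t : ℂ) = ⟪v, x w⟫_ℂ := by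
  have := h.normal
  set l := exp (I * θ / 2) with hl
  set S : H →L[ℂ] H := (2 : ℂ) • (1 : H →L[ℂ] H) - R with hS
  have hTsa : star (cf R tfun) = cf R tfun := h.cf_real _
  have hSsa : star S = S := by rw [hS, ← h.cf_two_sub]; exact h.cf_real _
  have hop : cf R tfun * c * cf R tfun = l • (R * x * S) + conj l • (S * x * R) := by
    refine ContinuousLinearMap.ext fun b => ext_inner_left ℂ fun a => ?_
    simp only [mul_apply_eq_comp, add_apply, smul_apply, inner_add_right, inner_smul_right]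
    rw [← ContinuousLinearMap.adjoint_inner_left, ← ContinuousLinearMap.star_eq_adjoint, hTsa, he,
      ← ContinuousLinearMap.adjoint_inner_left R, ← ContinuousLinearMap.star_eq_adjoint R,
      h.sa.star_eq, ← ContinuousLinearMap.adjoint_inner_left S,
      ← ContinuousLinearMap.star_eq_adjoint S, hSsa]
    simp only [hS, sub_apply, smul_apply, one_apply_eq_self]
  have step : ∀ n : ℕ, ∫ t : ℝ, exp ((θ : ℂ) * (t : ℂ)) *
      ⟪cf R (fun r => (chi n r : ℂ)) v, U t (c (U (-t) (cf R (fun r => (chi n r : ℂ)) w)))⟫_ℂ /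
        (den t : ℂ) =
      ⟪cf R (fun r => (chi n r : ℂ)) v, x (cf R (fun r => (chi n r : ℂ)) w)⟫_ℂ := by
    intro n
    have hb := chi_band n
    set d := 1 / ((n : ℝ) + 3)
    set P := cf R (fun r => (chi n r : ℂ)) with hP
    set E : ℂ → H →L[ℂ] H := fun z => cf R (efun d z) with hE
    have hEadd : ∀ a b : ℂ, E (a + b) = E a * E b := by
      intro a b
      simp only [hE]
      rw [← h.cf_mul (continuous_efun hb.pos a) (continuous_efun hb.pos b)]
      refine h.cf_congr fun r _ => ?_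
      simp only [efun, ← exp_add]
      ring_nf
    obtain ⟨Q, q0', q1', q2', q3', q4', q5'⟩ := h.band_split hb
    have q0 : P = cf R tfun * Q := q0'
    have q1 : P = Q * cf R tfun := q1'
    have q2 : R * Q = E (I / 2) * P := q2'
    have q3 : Q * R = P * E (I / 2) := q3'
    have q4 : S * Q = E (-(I / 2)) * P := q4'
    have q5 : Q * S = P * E (-(I / 2)) := q5'
    have hPE : ∀ z, P * E z = E z * P := fun z => h.cf_comm _ _
    have hPcP : P * c * P = l • (E (I / 2) * (P * x * P) * E (-(I / 2))) +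
        conj l • (E (-(I / 2)) * (P * x * P) * E (I / 2)) := by
      calc P * c * P = Q * (cf R tfun * c * cf R tfun) * Q := by
            conv_lhs => arg 1; arg 1; rw [q1]
            conv_lhs => arg 2; rw [q0]
            simp only [mul_assoc]
        _ = l • ((Q * R) * x * (S * Q)) + conj l • ((Q * S) * x * (R * Q)) := by
            simp only [hop, mul_add, add_mul, mul_smul_comm, smul_mul_assoc, mul_assoc]
        _ = _ := by
            have hswap : ∀ a b, (P * E a) * x * (E b * P) = E a * (P * x * P) * E b := fun a b => by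
              rw [hPE a, ← hPE b]; simp only [mul_assoc]
            rw [q3, q4, q5, q2, hswap, hswap]
    set G : ℂ → ℂ := fun z => exp ((θ : ℂ) * z) * ⟪v, (E z * (P * x * P) * E (-z)) w⟫_ℂ with hG
    have hGd : Differentiable ℂ G := by
      have hEd : Differentiable ℂ E := h.differentiable_efun hb.pos
      have h1 : Differentiable ℂ fun z => E z * (P * x * P) * E (-z) :=
        (hEd.mul_const _).mul (hEd.comp differentiable_id.neg)
      exact (differentiable_id.const_mul (θ : ℂ)).cexp.mul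
        ((innerSL ℂ v).differentiable.comp (((ContinuousLinearMap.apply ℂ H w).differentiable).comp h1))
    obtain ⟨N, hN0, hN⟩ := h.exists_bound hb.pos
    have hGb : ∀ z : ℂ, |z.im| ≤ 1 / 2 →
        ‖G z‖ ≤ (‖v‖ * (Real.exp N * ‖P * x * P‖ * ‖w‖)) * Real.exp (|θ| * |z.re|) := by
      intro z hz
      rw [hG, norm_mul, Complex.norm_exp, mul_comm]
      refine mul_le_mul ?_ (Real.exp_le_exp.2 ?_) (Real.exp_pos _).le (by positivity)
      · refine (norm_inner_le_norm _ _).trans (mul_le_mul_of_nonneg_left ?_ (norm_nonneg _))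
        refine (ContinuousLinearMap.le_opNorm _ _).trans
          (mul_le_mul_of_nonneg_right ?_ (norm_nonneg _))
        have b1 : ∀ y : ℂ, |y.im| ≤ 1 / 2 → ‖E y‖ ≤ Real.exp (N / 2) := fun y hy =>
          (hN y).trans (Real.exp_le_exp.2 (by nlinarith))
        calc ‖E z * (P * x * P) * E (-z)‖ ≤ ‖E z‖ * ‖P * x * P‖ * ‖E (-z)‖ :=
              (norm_mul_le _ _).trans (mul_le_mul_of_nonneg_right (norm_mul_le _ _) (norm_nonneg _))
          _ ≤ Real.exp (N / 2) * ‖P * x * P‖ * Real.exp (N / 2) := by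
              gcongr
              · exact b1 z hz
              · exact b1 (-z) (by simpa using hz)
          _ = _ := by rw [mul_right_comm, ← Real.exp_add, add_halves]
      · rw [re_ofReal_mul, ← abs_mul]; exact le_abs_self _
    have hs := strip_integral hGd hθ hGb
    have hPsa : star P = P := h.cf_real _
    have hG0 : G 0 = ⟪P v, x (P w)⟫_ℂ := by
      have hE0 : E 0 = 1 := by
        simp only [hE]
        rw [show efun d 0 = fun _ => (1 : ℂ) from funext fun r => by simp [efun]]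
        exact cfc_const_one ℂ R
      simp only [hG, mul_zero, exp_zero, one_mul, neg_zero, hE0, one_apply_eq_self, mul_apply_eq_comp]
      rw [← ContinuousLinearMap.adjoint_inner_left, ← ContinuousLinearMap.star_eq_adjoint, hPsa]
    rw [← hG0, ← hs]
    refine integral_congr_ae (Eventually.of_forall fun t => ?_)
    show _ / _ = _ / _
    congr 1
    have hconj : conj l = exp (-(I * θ / 2)) := by
      rw [hl, ← exp_conj, map_div₀, map_mul, conj_I, conj_ofReal, map_ofNat]; ring_nf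
    have hop2 : P * U t * c * U (-t) * P = E t * (P * c * P) * E (-t) := by
      calc P * U t * c * U (-t) * P = (P * U t) * c * (U (-t) * P) := by simp only [mul_assoc]
        _ = (P * E t) * c * (E (-t) * P) := by
            rw [show P * U t = P * E t from h.U_band_right hb t,
              show U (-t) * P = E ((-t : ℝ) : ℂ) * P from h.U_band hb (-t), ofReal_neg]
        _ = (E t * P) * c * (P * E (-t)) := by rw [hPE, ← hPE (-t : ℂ)]
        _ = _ := by simp only [mul_assoc]
    have e1 : ⟪P v, U t (c (U (-t) (P w)))⟫_ℂ = ⟪v, (P * U t * c * U (-t) * P) w⟫_ℂ := by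
      simp only [mul_apply_eq_comp]
      conv_lhs => rw [← hPsa, ContinuousLinearMap.star_eq_adjoint,
        ContinuousLinearMap.adjoint_inner_left, ← ContinuousLinearMap.star_eq_adjoint, hPsa]
    rw [e1, hop2, hPcP]
    simp only [hG, mul_add, add_mul, mul_smul_comm, smul_mul_assoc, add_apply, smul_apply,
      inner_add_right, inner_smul_right]
    have f1 : E t * (E (I / 2) * (P * x * P) * E (-(I / 2))) * E (-t) =
        E ((t : ℂ) + I / 2) * (P * x * P) * E (-((t : ℂ) + I / 2)) := by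
      rw [hEadd (t : ℂ), show -((t : ℂ) + I / 2) = -(I / 2) + -(t : ℂ) by ring, hEadd]
      simp only [mul_assoc]
    have f2 : E t * (E (-(I / 2)) * (P * x * P) * E (I / 2)) * E (-t) =
        E ((t : ℂ) - I / 2) * (P * x * P) * E (-((t : ℂ) - I / 2)) := by
      rw [sub_eq_add_neg (t : ℂ), hEadd (t : ℂ),
        show -((t : ℂ) + -(I / 2)) = I / 2 + -(t : ℂ) by ring, hEadd]
      simp only [mul_assoc]
    rw [f1, f2, hconj, hl, sub_eq_add_neg (t : ℂ)]
    simp only [mul_add (θ : ℂ), exp_add]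
    rw [show (θ : ℂ) * (I / 2) = I * θ / 2 by ring,
      show (θ : ℂ) * -(I / 2) = -(I * θ / 2) by ring]
    ring
  have lim : Tendsto (fun n => ⟪cf R (fun r => (chi n r : ℂ)) v,
      x (cf R (fun r => (chi n r : ℂ)) w)⟫_ℂ) atTop (𝓝 ⟪v, x w⟫_ℂ) :=
    (h.tendsto_chi v).inner ((x.continuous.tendsto w).comp (h.tendsto_chi w))
  refine tendsto_nhds_unique ?_ lim
  simp only [← step]
  refine tendsto_integral_of_dominated_convergence
    (fun t => ‖v‖ * (‖c‖ * ‖w‖) * Real.exp (-((Real.pi - |θ|) * |t|))) (fun n => ?_)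
    ((integrable_exp_abs (sub_pos.2 hθ)).const_mul _) (fun n => Eventually.of_forall fun t => ?_)
    (Eventually.of_forall fun t => ?_)
  · refine Continuous.aestronglyMeasurable ?_
    exact ((by fun_prop : Continuous fun t : ℝ => exp ((θ : ℂ) * (t : ℂ))).mul
      (h.continuous_pairing c _ _)).div (continuous_ofReal.comp continuous_den)
      fun t => ofReal_ne_zero.2 (den_pos t).ne'
  · refine norm_div_den_le ?_
    rw [norm_mul, Complex.norm_exp, mul_comm]
    refine mul_le_mul ((h.norm_pairing_le c t _ _).trans ?_) (Real.exp_le_exp.2 ?_)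
      (Real.exp_pos _).le (by positivity)
    · have hle : ∀ y, ‖cf R (fun r => (chi n r : ℂ)) y‖ ≤ ‖y‖ := fun y => by
        exact (ContinuousLinearMap.le_of_opNorm_le _
          (h.norm_cf_le zero_le_one fun r _ => norm_chi_le n r) y).trans_eq (one_mul _)
      gcongr <;> exact hle _
    · rw [re_ofReal_mul, ofReal_re, ← abs_mul]; exact le_abs_self _
  · exact (((h.tendsto_chi v).inner (((U t).continuous.comp (c.continuous.comp
      (U (-t)).continuous)).tendsto w |>.comp (h.tendsto_chi w))).const_mul _).div_const _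

theorem orbit (S : VonNeumannAlgebra H) {c : H →L[ℂ] H} (hc : SakaiEq S R c) (t : ℝ) :
    U t * c * U (-t) ∈ S := by
  refine mem_of_commute S fun y hy => ?_
  refine ContinuousLinearMap.ext fun w => ext_inner_left ℂ fun v => ?_
  set A : ℝ → ℂ := fun s => ⟪star y v, U s (c (U (-s) w))⟫_ℂ with hA
  set B : ℝ → ℂ := fun s => ⟪v, U s (c (U (-s) (y w)))⟫_ℂ with hB
  set K : ℝ → ℂ := fun s => (A s - B s) / (den s : ℂ) with hK
  have hKc : Continuous K := ((h.continuous_pairing c _ _).sub (h.continuous_pairing c _ _)).div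
    (continuous_ofReal.comp continuous_den) fun s => ofReal_ne_zero.2 (den_pos s).ne'
  set C := ‖star y v‖ * (‖c‖ * ‖w‖) + ‖v‖ * (‖c‖ * ‖y w‖)
  have hKb : ∀ s, ‖K s‖ ≤ C * Real.exp (-(Real.pi * |s|)) := fun s => by
    have h1 := norm_div_den_le (t := s) (κ := 0) (C := C) (w := A s - B s) (by
      simpa using (norm_sub_le _ _).trans
        (add_le_add (h.norm_pairing_le c s _ _) (h.norm_pairing_le c s _ _)))
    simpa [hK] using h1
  have hK0 : K = 0 := by
    refine eq_zero_of_laplace hKc hKb fun θ hθ => ?_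
    obtain ⟨x, hx, he⟩ := hc (exp (I * θ / 2)) (by
      rw [exp_re]
      simp only [mul_re, I_re, ofReal_re, I_im, ofReal_im, mul_im, div_ofNat_re, div_ofNat_im]
      norm_num
      obtain ⟨a, b⟩ := abs_lt.1 hθ
      exact Real.cos_pos_of_mem_Ioo ⟨by linarith, by linarith⟩)
    have hint : ∀ a b : H, Integrable fun s : ℝ =>
        exp ((θ : ℂ) * (s : ℂ)) * ⟪a, U s (c (U (-s) b))⟫_ℂ / (den s : ℂ) := fun a b =>
      integrable_div_den ((by fun_prop : Continuous fun t : ℝ => exp ((θ : ℂ) * (t : ℂ))).mul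
        (h.continuous_pairing c a b)) hθ (C := ‖a‖ * (‖c‖ * ‖b‖)) fun s => by
        rw [norm_mul, Complex.norm_exp, mul_comm]
        refine mul_le_mul (h.norm_pairing_le c s _ _) (Real.exp_le_exp.2 ?_) (Real.exp_pos _).le
          (by positivity)
        rw [re_ofReal_mul, ofReal_re, ← abs_mul]; exact le_abs_self _
    have e : ∀ s : ℝ, exp ((θ : ℂ) * (s : ℂ)) * K s =
        exp ((θ : ℂ) * (s : ℂ)) * A s / (den s : ℂ) -
          exp ((θ : ℂ) * (s : ℂ)) * B s / (den s : ℂ) := fun s => by simp only [hK]; ring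
    simp only [e]
    rw [integral_sub (hint _ _) (hint _ _), h.integral_orbit hθ he, h.integral_orbit hθ he,
      sub_eq_zero, ContinuousLinearMap.star_eq_adjoint, ContinuousLinearMap.adjoint_inner_left]
    have hxy := (S.mem_commutant_iff.1 hy x hx)
    simp only [← mul_apply_eq_comp, hxy]
  have := congrFun hK0 t
  simp only [hK, Pi.zero_apply, div_eq_zero_iff, ofReal_eq_zero, (den_pos t).ne', or_false,
    sub_eq_zero, hA, hB, ContinuousLinearMap.star_eq_adjoint,
    ContinuousLinearMap.adjoint_inner_left] at this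
  simpa [mul_apply_eq_comp] using this

end ModPair

theorem stmtOrbit : StmtOrbit.{v} := fun _H _ _ _ _R _U S _c h hc t => h.orbit S hc t

end Vale.Agent.P132.Tomita
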