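import Vale.Agent.P132.Tomita.Fun

/-!
# Calculus of functions of the operator
-/

namespace Vale.Agent.P132.Tomita

open scoped InnerProductSpace Topology ComplexOrder ComplexConjugate
open Filter MeasureTheory

universe u

variable {H : Type u} [NormedAddCommGroup H] [InnerProductSpace ℂ H] [CompleteSpace H]
  {R : H →L[ℂ] H}

/-- `r (2 - r)`. -/
noncomputable def wfun (r : ℝ) : ℂ := ((r * (2 - r) : ℝ) : ℂ)

theorem continuous_wfun : Continuous wfun := by unfold wfun; fun_prop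

theorem continuous_tfun : Continuous tfun := by unfold tfun; fun_prop

theorem re_mem_spectrum (hR : IsSelfAdjoint R) {z : ℂ} (hz : z ∈ spectrum ℂ R) :
    z.re ∈ spectrum ℝ R := by
  rw [← spectrum.algebraMap_mem_iff ℂ, Complex.coe_algebraMap, ← hR.mem_spectrum_eq_re hz]
  exact hz

theorem norm_hfun (t r : ℝ) : ‖hfun t r‖ = |r * (2 - r)| := by
  rw [hfun, norm_mul, Complex.norm_real, Real.norm_eq_abs, Complex.norm_exp]
  simp

theorem continuous_hfun (t : ℝ) : Continuous (hfun t) := by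
  rw [continuous_iff_continuousAt]
  intro r
  by_cases h : r * (2 - r) = 0
  · have h0 : hfun t r = 0 := norm_eq_zero.1 (by rw [norm_hfun, h, abs_zero])
    rw [ContinuousAt, h0, tendsto_zero_iff_norm_tendsto_zero]
    simp only [norm_hfun]
    have hc : Continuous fun r : ℝ => |r * (2 - r)| := by fun_prop
    simpa [h] using hc.tendsto r
  · have h1 : r ≠ 0 := left_ne_zero_of_mul h
    have h2 : (2 - r) / r ≠ 0 := div_ne_zero (right_ne_zero_of_mul h) h1
    unfold hfun lfun
    fun_prop (disch := assumption)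

theorem cf_mul (φ ψ : ℝ → ℂ) (hφ : Continuous φ) (hψ : Continuous ψ) :
    cf R (fun r => φ r * ψ r) = cf R φ * cf R ψ :=
  cfc_mul (fun z : ℂ => φ z.re) (fun z : ℂ => ψ z.re) R
    (hφ.comp Complex.continuous_re).continuousOn (hψ.comp Complex.continuous_re).continuousOn

theorem cf_add (φ ψ : ℝ → ℂ) (hφ : Continuous φ) (hψ : Continuous ψ) :
    cf R (fun r => φ r + ψ r) = cf R φ + cf R ψ :=
  cfc_add (a := R) (fun z : ℂ => φ z.re) (fun z : ℂ => ψ z.re)
    (hφ.comp Complex.continuous_re).continuousOn (hψ.comp Complex.continuous_re).continuousOn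

theorem cf_congr (hR : IsSelfAdjoint R) (hs : spectrum ℝ R ⊆ Set.Icc 0 2) {φ ψ : ℝ → ℂ}
    (h : ∀ r ∈ Set.Icc (0 : ℝ) 2, φ r = ψ r) : cf R φ = cf R ψ :=
  cfc_congr fun _ hz => h _ (hs (re_mem_spectrum hR hz))

theorem cf_star (φ : ℝ → ℂ) : star (cf R φ) = cf R fun r => conj (φ r) :=
  (cfc_star (fun z : ℂ => φ z.re) R).symm

theorem cf_comm (φ ψ : ℝ → ℂ) : cf R φ * cf R ψ = cf R ψ * cf R φ := (cfc_commute_cfc _ _ R).eq

theorem cf_id (hR : IsSelfAdjoint R) : cf R (fun r => (r : ℂ)) = R := by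
  conv_rhs => rw [← cfc_id' ℂ R hR.isStarNormal]
  exact cfc_congr fun z hz => (hR.mem_spectrum_eq_re hz).symm

theorem cf_real (hR : IsSelfAdjoint R) (φ : ℝ → ℝ) : cf R (fun r => (φ r : ℂ)) = cfc φ R :=
  (cfc_real_eq_complex φ hR).symm

theorem cf_smul (c : ℂ) (φ : ℝ → ℂ) (hφ : Continuous φ) :
    cf R (fun r => c * φ r) = c • cf R φ :=
  cfc_smul c (fun z : ℂ => φ z.re) R (hφ.comp Complex.continuous_re).continuousOn

theorem cf_split (hR : IsSelfAdjoint R) (φ : ℝ → ℂ) (hφ : Continuous φ) :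
    cf R φ = cfc (fun r => (φ r).re) R + Complex.I • cfc (fun r => (φ r).im) R := by
  rw [← cf_real hR, ← cf_real hR, ← cf_smul _ _ (by fun_prop),
    ← cf_add _ _ (by fun_prop) (by fun_prop)]
  congr 1
  funext r
  rw [mul_comm Complex.I, Complex.re_add_im]

theorem cf_tfun_sq (hR : IsSelfAdjoint R) (hs : spectrum ℝ R ⊆ Set.Icc 0 2) :
    cf R tfun * cf R tfun = cf R wfun := by
  rw [← cf_mul _ _ continuous_tfun continuous_tfun]
  refine cf_congr hR hs fun r hr => ?_
  rw [tfun, wfun, ← Complex.ofReal_mul, Real.mul_self_sqrt]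
  exact mul_nonneg hr.1 (by linarith [hr.2])

theorem cf_wfun (hR : IsSelfAdjoint R) : cf R wfun = (2 : ℂ) • R - R * R := by
  have h1 := cf_id hR
  have hc : Continuous fun r : ℝ => (r : ℂ) := Complex.continuous_ofReal
  have h2 : cf R (fun r => (r : ℂ) * (r : ℂ)) = R * R := by rw [cf_mul _ _ hc hc, h1]
  have h3 : cf R wfun + cf R (fun r => (r : ℂ) * (r : ℂ)) = (2 : ℂ) • R := by
    rw [← cf_add _ (fun r : ℝ => (r : ℂ) * (r : ℂ)) continuous_wfun (hc.mul hc)]
    have : (fun r : ℝ => wfun r + (r : ℂ) * (r : ℂ)) = fun r : ℝ => (2 : ℂ) * (r : ℂ) := by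
      funext r; simp only [wfun]; push_cast; ring
    rw [this, cf_smul _ _ hc, h1]
  rw [← h2, eq_sub_iff_add_eq, h3]

theorem star_cf_tfun : star (cf R tfun) = cf R tfun := by
  rw [cf_star]
  congr 1
  funext r
  exact Complex.conj_ofReal _

theorem star_cf_wfun : star (cf R wfun) = cf R wfun := by
  rw [cf_star]
  congr 1
  funext r
  exact Complex.conj_ofReal _

end Vale.Agent.P132.Tomita
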