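import Vale.Agent.P132.Tomita.Std
import Vale.Agent.P132.Tomita.Cfun

/-!
# The operators of a standard subspace
-/

namespace Vale.Agent.P132.Tomita

open scoped InnerProductSpace Topology ComplexOrder ComplexConjugate
open Filter

universe u

variable {H : Type u} [NormedAddCommGroup H] [InnerProductSpace ℂ H] [CompleteSpace H]
  {M : VonNeumannAlgebra H} {Ω : H}

attribute [local instance] InnerProductSpace.complexToReal

/-- The projection on `i ksp`. -/
noncomputable def projIK (M : VonNeumannAlgebra H) (Ω : H) (v : H) : H :=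
  Complex.I • projK M Ω (-(Complex.I • v))

omit [CompleteSpace H] in
theorem I_I (v : H) : Complex.I • Complex.I • v = -v := by
  rw [smul_smul, Complex.I_mul_I, neg_one_smul]

theorem projIK_add (u v : H) : projIK M Ω (u + v) = projIK M Ω u + projIK M Ω v := by
  rw [projIK, projIK, projIK, smul_add Complex.I u v, neg_add, map_add, smul_add]

theorem projIK_neg (v : H) : projIK M Ω (-v) = -projIK M Ω v := by
  simp [projIK]

theorem projIK_smul (a : ℝ) (v : H) : projIK M Ω (a • v) = a • projIK M Ω v := by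
  rw [projIK, projIK, smul_comm Complex.I a v, ← smul_neg, map_smul, smul_comm]

theorem projK_I (v : H) : projK M Ω (Complex.I • v) = Complex.I • projIK M Ω v := by
  rw [projIK, I_I, map_neg, neg_neg]

theorem projIK_I (v : H) : projIK M Ω (Complex.I • v) = Complex.I • projK M Ω v := by
  rw [projIK, I_I, neg_neg]

theorem projK_idem (v : H) : projK M Ω (projK M Ω v) = projK M Ω v :=
  projK_eq_self (projK_mem v)

theorem projIK_idem (v : H) : projIK M Ω (projIK M Ω v) = projIK M Ω v := by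
  simp [projIK, I_I, projK_idem]

omit [CompleteSpace H] in
theorem linear_of_I (f : H → H) (hadd : ∀ u v, f (u + v) = f u + f v)
    (hr : ∀ (a : ℝ) v, f (a • v) = a • f v) (hI : ∀ v, f (Complex.I • v) = Complex.I • f v)
    (c : ℂ) (v : H) : f (c • v) = c • f v := by
  have h : ∀ w : H, c • w = c.re • w + c.im • (Complex.I • w) := fun w => by
    conv_lhs => rw [← Complex.re_add_im c]
    rw [add_smul, mul_smul, Complex.coe_smul, Complex.coe_smul]
  rw [h v, hadd, hr, hr, hI, ← h]

/-- `P + Q`. -/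
noncomputable def rop (M : VonNeumannAlgebra H) (Ω : H) : H →L[ℂ] H :=
  LinearMap.mkContinuous
    { toFun := fun v => projK M Ω v + projIK M Ω v
      map_add' := fun u v => by rw [map_add, projIK_add]; abel
      map_smul' := fun c v => linear_of_I (fun v => projK M Ω v + projIK M Ω v)
        (fun u v => by rw [map_add, projIK_add]; abel)
        (fun a v => by rw [map_smul, projIK_smul, smul_add])
        (fun v => by rw [projK_I, projIK_I, smul_add]; abel) c v }
    2 fun v => by
      show ‖projK M Ω v + projIK M Ω v‖ ≤ _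
      refine (norm_add_le _ _).trans ?_
      have h1 : ∀ w, ‖projK M Ω w‖ ≤ ‖w‖ := fun w => (ksp M Ω).norm_starProjection_apply_le w
      have h2 : ‖projIK M Ω v‖ ≤ ‖v‖ := by
        rw [projIK, norm_smul, Complex.norm_I, one_mul]
        refine (h1 _).trans_eq ?_
        rw [norm_neg, norm_smul, Complex.norm_I, one_mul]
      linarith [h1 v]

theorem rop_apply (v : H) : rop M Ω v = projK M Ω v + projIK M Ω v := rfl

/-- `P - Q`, antilinear. -/
noncomputable def aop (M : VonNeumannAlgebra H) (Ω : H) (v : H) : H :=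
  projK M Ω v - projIK M Ω v

theorem aop_add (u v : H) : aop M Ω (u + v) = aop M Ω u + aop M Ω v := by
  rw [aop, aop, aop, map_add, projIK_add]; abel

theorem aop_I (v : H) : aop M Ω (Complex.I • v) = -(Complex.I • aop M Ω v) := by
  rw [aop, aop, projK_I, projIK_I, smul_sub]; abel

theorem aop_smul (c : ℂ) (v : H) : aop M Ω (c • v) = conj c • aop M Ω v := by
  have h : ∀ (z : ℂ) (w : H), z • w = z.re • w + z.im • (Complex.I • w) := fun z w => by
    conv_lhs => rw [← Complex.re_add_im z]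
    rw [add_smul, mul_smul, Complex.coe_smul, Complex.coe_smul]
  have hr : ∀ (a : ℝ) w, aop M Ω (a • w) = a • aop M Ω w := fun a w => by
    rw [aop, aop, map_smul, projIK_smul, smul_sub]
  rw [h c v, aop_add, hr, hr, aop_I, h (conj c), Complex.conj_re, Complex.conj_im, neg_smul,
    smul_neg]

omit [CompleteSpace H] in
theorem re_inner_neg_I (a b : H) : (⟪a, b⟫_ℂ).im = (⟪a, -(Complex.I • b)⟫_ℂ).re := by
  simp [inner_neg_right, inner_smul_right]

theorem re_projK_symm (u v : H) : (⟪projK M Ω u, v⟫_ℂ).re = (⟪u, projK M Ω v⟫_ℂ).re :=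
  (ksp M Ω).inner_starProjection_left_eq_right u v

theorem re_projIK_symm (u v : H) : (⟪projIK M Ω u, v⟫_ℂ).re = (⟪u, projIK M Ω v⟫_ℂ).re := by
  have h : ∀ a b : H, (⟪Complex.I • a, b⟫_ℂ).re = (⟪a, -(Complex.I • b)⟫_ℂ).re := fun a b => by
    simp [inner_neg_right, inner_smul_right]
  rw [projIK, h, re_projK_symm, projIK, ← inner_conj_symm, Complex.conj_re, ← inner_conj_symm u,
    Complex.conj_re]
  have := h (projK M Ω (-(Complex.I • v))) u
  rw [← this]

theorem rop_selfAdjoint : IsSelfAdjoint (rop M Ω) := by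
  rw [IsSelfAdjoint, ContinuousLinearMap.star_eq_adjoint, eq_comm,
    ContinuousLinearMap.eq_adjoint_iff]
  intro u v
  have hre : ∀ u v, (⟪rop M Ω u, v⟫_ℂ).re = (⟪u, rop M Ω v⟫_ℂ).re := fun u v => by
    rw [rop_apply, rop_apply, inner_add_left, inner_add_right, Complex.add_re, Complex.add_re,
      re_projK_symm, re_projIK_symm]
  refine Complex.ext (hre u v) ?_
  rw [re_inner_neg_I, re_inner_neg_I, hre, map_neg, map_smul]

theorem re_inner_rop (v : H) : (⟪v, rop M Ω v⟫_ℂ).re =
    ‖projK M Ω v‖ ^ 2 + ‖projIK M Ω v‖ ^ 2 := by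
  have h1 : (⟪v, projK M Ω v⟫_ℂ).re = ‖projK M Ω v‖ ^ 2 := by
    rw [← projK_idem v, ← re_projK_symm, projK_idem]
    exact inner_self_eq_norm_sq (𝕜 := ℂ) _
  have h2 : (⟪v, projIK M Ω v⟫_ℂ).re = ‖projIK M Ω v‖ ^ 2 := by
    rw [← projIK_idem v, ← re_projIK_symm, projIK_idem]
    exact inner_self_eq_norm_sq (𝕜 := ℂ) _
  rw [rop_apply, inner_add_right, Complex.add_re, h1, h2]

theorem norm_projK_le (v : H) : ‖projK M Ω v‖ ≤ ‖v‖ := (ksp M Ω).norm_starProjection_apply_le v

theorem norm_projIK_le (v : H) : ‖projIK M Ω v‖ ≤ ‖v‖ := by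
  rw [projIK, norm_smul, Complex.norm_I, one_mul]
  refine (norm_projK_le _).trans_eq ?_
  rw [norm_neg, norm_smul, Complex.norm_I, one_mul]

theorem spec_rop : spectrum ℝ (rop M Ω) ⊆ Set.Icc 0 2 := by
  have h0 : 0 ≤ rop M Ω := by
    rw [ContinuousLinearMap.nonneg_iff_isPositive, ContinuousLinearMap.isPositive_def']
    refine ⟨rop_selfAdjoint, fun v => ?_⟩
    show 0 ≤ (⟪rop M Ω v, v⟫_ℂ).re
    rw [← inner_conj_symm, Complex.conj_re, re_inner_rop]
    positivity
  have h2 : 0 ≤ (2 : ℝ) • (1 : H →L[ℂ] H) - rop M Ω := by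
    rw [ContinuousLinearMap.nonneg_iff_isPositive, ContinuousLinearMap.isPositive_def']
    refine ⟨IsSelfAdjoint.sub (by simp [IsSelfAdjoint, star_smul]) rop_selfAdjoint, fun v => ?_⟩
    show 0 ≤ (⟪(2 : ℝ) • v - rop M Ω v, v⟫_ℂ).re
    rw [← inner_conj_symm, Complex.conj_re, inner_sub_right, Complex.sub_re, re_inner_rop,
      ← Complex.coe_smul, inner_smul_right, Complex.re_ofReal_mul,
      ← RCLike.re_eq_complex_re, inner_self_eq_norm_sq]
    have := pow_le_pow_left₀ (norm_nonneg _) (norm_projK_le (M := M) (Ω := Ω) v) 2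
    have := pow_le_pow_left₀ (norm_nonneg _) (norm_projIK_le (M := M) (Ω := Ω) v) 2
    linarith
  rw [sub_nonneg, ← Algebra.algebraMap_eq_smul_one] at h2
  exact fun x hx => ⟨spectrum_nonneg_of_nonneg h0 hx,
    (le_algebraMap_iff_spectrum_le (rop_selfAdjoint (M := M) (Ω := Ω))).1 h2 x hx⟩

theorem inner_ksp_zero {v : H} (hv : projK M Ω v = 0) {x : H →L[ℂ] H} (hx : x ∈ M)
    (hs : star x = x) : (⟪x Ω, v⟫_ℂ).re = 0 := by
  rw [← re_inner_projK (mem_ksp hx hs), hv, inner_zero_right, Complex.zero_re]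

theorem eq_zero_of_sa (hcs : IsCS M Ω) {v : H}
    (h : ∀ x ∈ M, star x = x → ⟪x Ω, v⟫_ℂ = 0) : v = 0 := by
  refine ext_alg hcs fun m hm => ?_
  set p := (1 / 2 : ℂ) • (m + star m) with hp
  set q := (Complex.I / 2) • (star m - m) with hq
  have e1 : m = p + Complex.I • q := by
    rw [hp, hq, smul_smul, ← mul_div_assoc, Complex.I_mul_I]; module
  have hps : star p = p := by simp [hp, star_smul, add_comm]
  have hqs : star q = q := by simp [hq, star_smul, neg_div, ← smul_neg, neg_sub]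
  have hpM : p ∈ M := smul_mem_alg M _ (add_mem hm (star_mem hm))
  have hqM : q ∈ M := smul_mem_alg M _ (sub_mem (star_mem hm) hm)
  clear_value p q
  rw [e1, add_apply, smul_apply, inner_add_left, inner_smul_left, h p hpM hps, h q hqM hqs]
  simp

theorem rop_inj (hcs : IsCS M Ω) (v : H) (h : rop M Ω v = 0) : v = 0 := by
  have hs := re_inner_rop (M := M) (Ω := Ω) v
  rw [h, inner_zero_right, Complex.zero_re] at hs
  have h1 : projK M Ω v = 0 := norm_eq_zero.1 ((pow_eq_zero_iff two_ne_zero).1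
    (le_antisymm (by nlinarith [sq_nonneg ‖projIK M Ω v‖]) (sq_nonneg _)))
  have h2 : projIK M Ω v = 0 := norm_eq_zero.1 ((pow_eq_zero_iff two_ne_zero).1
    (le_antisymm (by nlinarith [sq_nonneg ‖projK M Ω v‖]) (sq_nonneg _)))
  rw [projIK, smul_eq_zero, or_iff_right Complex.I_ne_zero] at h2
  refine eq_zero_of_sa hcs fun x hx hs => Complex.ext (inner_ksp_zero h1 hx hs) ?_
  rw [re_inner_neg_I, Complex.zero_im]
  exact inner_ksp_zero h2 hx hs

theorem im_inner_ksp {a : H →L[ℂ] H} (ha : a ∈ M.commutant) (hs : star a = a) {k : H}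
    (hk : k ∈ ksp M Ω) : (⟪a Ω, k⟫_ℂ).im = 0 := by
  refine closure_minimal (t := {k : H | (⟪a Ω, k⟫_ℂ).im = 0}) ?_
    (isClosed_eq (by fun_prop) continuous_const) hk
  rintro _ ⟨x, hx, hxs, rfl⟩
  refine Complex.conj_eq_iff_im.1 ?_
  rw [inner_conj_symm, inner_sa hs, ← commute_apply hx ha, ← inner_sa hxs]

theorem rop_inj_two (hcs : IsCS M Ω) (v : H) (h : rop M Ω v = (2 : ℂ) • v) : v = 0 := by
  have hs := re_inner_rop (M := M) (Ω := Ω) v
  rw [h, inner_smul_right, show (2 : ℂ) = ((2 : ℝ) : ℂ) by norm_num, Complex.re_ofReal_mul,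
    ← RCLike.re_eq_complex_re, inner_self_eq_norm_sq] at hs
  have h1 := pow_le_pow_left₀ (norm_nonneg _) (norm_projK_le (M := M) (Ω := Ω) v) 2
  have h2 := pow_le_pow_left₀ (norm_nonneg _) (norm_projIK_le (M := M) (Ω := Ω) v) 2
  have e1 : v ∈ ksp M Ω :=
    ((ksp M Ω).mem_iff_norm_starProjection v).2
      ((pow_left_inj₀ (norm_nonneg _) (norm_nonneg _) two_ne_zero).1
        (le_antisymm h1 (by linarith) : ‖projK M Ω v‖ ^ 2 = ‖v‖ ^ 2))
  have e3 : ‖projK M Ω (-(Complex.I • v))‖ = ‖-(Complex.I • v)‖ := by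
    have h3 : ‖projIK M Ω v‖ = ‖v‖ :=
      (pow_left_inj₀ (norm_nonneg _) (norm_nonneg _) two_ne_zero).1 (le_antisymm h2 (by linarith))
    rw [projIK, norm_smul, Complex.norm_I, one_mul] at h3
    rw [h3, norm_neg, norm_smul, Complex.norm_I, one_mul]
  have e2 : -(Complex.I • v) ∈ ksp M Ω := ((ksp M Ω).mem_iff_norm_starProjection _).2 e3
  refine eq_zero_of_sa (isCS_commutant hcs) fun a ha has => Complex.ext ?_ (im_inner_ksp ha has e1)
  have := im_inner_ksp ha has e2
  simpa [inner_neg_right, inner_smul_right] using this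

theorem aop_aop (v : H) :
    aop M Ω (aop M Ω v) = (2 : ℂ) • rop M Ω v - rop M Ω (rop M Ω v) := by
  simp only [aop, rop_apply, map_sub, map_add, two_smul]
  rw [sub_eq_add_neg (projK M Ω v) (projIK M Ω v), projIK_add, projIK_neg,
    projK_idem, projIK_idem]
  abel

theorem aop_rop (v : H) :
    aop M Ω (rop M Ω v) = (2 : ℂ) • aop M Ω v - rop M Ω (aop M Ω v) := by
  simp only [aop, rop_apply, map_sub, map_add, two_smul]
  rw [sub_eq_add_neg (projK M Ω v) (projIK M Ω v), projIK_add,
    projK_idem, projIK_idem]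
  abel

theorem re_aop_symm (u v : H) : (⟪aop M Ω u, v⟫_ℂ).re = (⟪u, aop M Ω v⟫_ℂ).re := by
  rw [aop, aop, inner_sub_left, inner_sub_right, Complex.sub_re, Complex.sub_re, re_projK_symm,
    re_projIK_symm]

theorem aop_symm (u v : H) : ⟪aop M Ω u, v⟫_ℂ = ⟪aop M Ω v, u⟫_ℂ := by
  have hre : ∀ u v, (⟪aop M Ω u, v⟫_ℂ).re = (⟪aop M Ω v, u⟫_ℂ).re := fun u v => by
    rw [re_aop_symm, ← inner_conj_symm, Complex.conj_re]
  refine Complex.ext (hre u v) ?_
  rw [re_inner_neg_I, hre, ← neg_smul, aop_smul, map_neg, Complex.conj_I, neg_neg]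
  simp

/-- `√(R (2 - R))`. -/
noncomputable def top' (M : VonNeumannAlgebra H) (Ω : H) : H →L[ℂ] H := cf (rop M Ω) tfun

theorem top_sq (v : H) :
    top' M Ω (top' M Ω v) = (2 : ℂ) • rop M Ω v - rop M Ω (rop M Ω v) := by
  rw [top', ← mul_apply_eq_comp, cf_tfun_sq rop_selfAdjoint spec_rop, cf_wfun rop_selfAdjoint]
  rfl

theorem norm_aop (v : H) : ‖aop M Ω v‖ = ‖top' M Ω v‖ := by
  refine (pow_left_inj₀ (norm_nonneg _) (norm_nonneg _) two_ne_zero).1 ?_
  rw [← inner_self_eq_norm_sq (𝕜 := ℂ), ← inner_self_eq_norm_sq (𝕜 := ℂ),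
    RCLike.re_eq_complex_re, re_aop_symm, aop_aop, ← top_sq,
    inner_sa (show star (top' M Ω) = _ from star_cf_tfun)]

theorem rop_comm_top (v : H) : top' M Ω (rop M Ω v) = rop M Ω (top' M Ω v) := by
  have h := cf_comm (R := rop M Ω) tfun fun r => (r : ℂ)
  rw [cf_id rop_selfAdjoint] at h
  exact congrArg (fun f : H →L[ℂ] H => f v) h

theorem aop_inj (hcs : IsCS M Ω) (v : H) (h : aop M Ω v = 0) : v = 0 := by
  have h1 := aop_aop (M := M) (Ω := Ω) v
  rw [h, show aop M Ω (0 : H) = 0 by simp [aop, projIK], eq_comm, sub_eq_zero, eq_comm] at h1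
  exact rop_inj hcs v (rop_inj_two hcs _ h1)

theorem top_inj (hcs : IsCS M Ω) (v : H) (h : top' M Ω v = 0) : v = 0 :=
  aop_inj hcs v (norm_eq_zero.1 (by rw [norm_aop, h, norm_zero]))

/-- An injective symmetric operator has dense range. -/
theorem denseRange_of_sa {T : H →L[ℂ] H} (hs : star T = T) (hinj : ∀ v, T v = 0 → v = 0) :
    DenseRange T := by
  have hd : (LinearMap.range T.toLinearMap).topologicalClosure = ⊤ := by
    rw [Submodule.topologicalClosure_eq_top_iff, Submodule.eq_bot_iff]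
    intro w hw
    refine hinj w ((inner_self_eq_zero (𝕜 := ℂ)).1 ?_ : T w = 0)
    have := hw (T (T w)) ⟨T w, rfl⟩
    rwa [inner_sa hs] at this
  intro v
  have : v ∈ (LinearMap.range T.toLinearMap).topologicalClosure := by rw [hd]; trivial
  exact this

/-- The modular conjugation as a conjugate linear map. -/
noncomputable def jop (M : VonNeumannAlgebra H) (Ω : H) : H →SL[starRingEnd ℂ] H :=
  LinearMap.extendOfNorm
    ({ toFun := aop M Ω
       map_add' := aop_add
       map_smul' := aop_smul } : H →ₛₗ[starRingEnd ℂ] H) (top' M Ω).toLinearMap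

variable (hcs : IsCS M Ω)
include hcs

theorem dense_top : DenseRange (top' M Ω) := denseRange_of_sa star_cf_tfun (top_inj hcs)

theorem jop_top (v : H) : jop M Ω (top' M Ω v) = aop M Ω v :=
  LinearMap.extendOfNorm_eq (dense_top hcs) ⟨1, fun w => by rw [one_mul]; exact (norm_aop w).le⟩ v

theorem norm_jop (v : H) : ‖jop M Ω v‖ = ‖v‖ := by
  refine (dense_top hcs).induction_on v ?_ fun w => ?_
  · exact isClosed_eq (by fun_prop) continuous_norm
  · rw [jop_top hcs, norm_aop]

theorem jop_inner (u v : H) : ⟪jop M Ω u, jop M Ω v⟫_ℂ = ⟪v, u⟫_ℂ := by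
  have hre : ∀ u v, (⟪jop M Ω u, jop M Ω v⟫_ℂ).re = (⟪v, u⟫_ℂ).re := by
    intro u v
    have h := norm_jop hcs (u + v)
    rw [map_add] at h
    have h' : ‖jop M Ω u + jop M Ω v‖ ^ 2 = ‖v + u‖ ^ 2 := by rw [h, add_comm]
    rw [norm_add_sq (𝕜 := ℂ), norm_add_sq (𝕜 := ℂ), norm_jop hcs, norm_jop hcs] at h'
    simp only [RCLike.re_eq_complex_re] at h'
    linarith
  refine Complex.ext (hre u v) ?_
  have e : -(Complex.I • jop M Ω v) = jop M Ω (Complex.I • v) := by
    rw [map_smulₛₗ, Complex.conj_I, neg_smul]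
  rw [re_inner_neg_I, e, hre]
  simp

theorem jop_rop (v : H) :
    jop M Ω (rop M Ω v) = (2 : ℂ) • jop M Ω v - rop M Ω (jop M Ω v) := by
  refine (dense_top hcs).induction_on v (isClosed_eq (by fun_prop) (by fun_prop)) fun w => ?_
  rw [← rop_comm_top, jop_top hcs, jop_top hcs, aop_rop]

theorem jop_surjective : Function.Surjective (jop M Ω) := by
  have hiso : Isometry (jop M Ω) := AddMonoidHomClass.isometry_of_norm _ (norm_jop hcs)
  have hcl : IsClosed (Set.range (jop M Ω)) := hiso.isClosedEmbedding.isClosed_range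
  let R' : Submodule ℝ H :=
    { carrier := Set.range (aop M Ω)
      add_mem' := by rintro _ _ ⟨u, rfl⟩ ⟨v, rfl⟩; exact ⟨u + v, aop_add u v⟩
      zero_mem' := ⟨0, by simp [aop, projIK]⟩
      smul_mem' := by
        rintro a _ ⟨v, rfl⟩
        exact ⟨(a : ℂ) • v, by rw [aop_smul, Complex.conj_ofReal, Complex.coe_smul]⟩ }
  have hd : R'.topologicalClosure = ⊤ := by
    rw [Submodule.topologicalClosure_eq_top_iff, Submodule.eq_bot_iff]
    intro w hw
    refine aop_inj hcs w (norm_eq_zero.1 ((pow_eq_zero_iff two_ne_zero).1 ?_))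
    have := hw (aop M Ω (aop M Ω w)) ⟨_, rfl⟩
    rw [rinner_eq, re_aop_symm, ← RCLike.re_eq_complex_re, inner_self_eq_norm_sq] at this
    exact this
  intro v
  have hv : v ∈ closure (Set.range (aop M Ω)) := by
    have : v ∈ R'.topologicalClosure := by rw [hd]; trivial
    exact this
  exact hcl.closure_subset (closure_mono (by
    rintro _ ⟨w, rfl⟩; exact ⟨_, jop_top hcs w⟩) hv)

theorem jop_real (v : H) (φ : ℝ → ℝ) (hφ : Continuous φ) :
    jop M Ω (cfc φ (rop M Ω) v) = cfc (fun r => φ (2 - r)) (rop M Ω) (jop M Ω v) := by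
  classical
  let e : H ≃ H := Equiv.ofBijective (jop M Ω)
    ⟨(AddMonoidHomClass.isometry_of_norm _ (norm_jop hcs)).injective, jop_surjective hcs⟩
  have he : ∀ w, jop M Ω (e.symm w) = w := e.apply_symm_apply
  have hadd : ∀ a b, e.symm (a + b) = e.symm a + e.symm b := fun a b =>
    e.injective (show jop M Ω _ = jop M Ω _ by rw [he, map_add (jop M Ω), he, he])
  have hsm : ∀ (c : ℂ) a, e.symm (c • a) = conj c • e.symm a := fun c a =>
    e.injective (show jop M Ω _ = jop M Ω _ by rw [he, map_smulₛₗ (jop M Ω), he, Complex.conj_conj])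
  have hn : ∀ a, ‖e.symm a‖ = ‖a‖ := fun a => by rw [← norm_jop hcs, he]
  let conjX : (H →L[ℂ] H) → (H →L[ℂ] H) := fun X => LinearMap.mkContinuous
    { toFun := fun w => jop M Ω (X (e.symm w))
      map_add' := fun a b => by rw [hadd, map_add, map_add]
      map_smul' := fun c a => by rw [hsm, map_smul, map_smulₛₗ, Complex.conj_conj, RingHom.id_apply] }
    ‖X‖ fun w => by
      show ‖jop M Ω (X (e.symm w))‖ ≤ _
      rw [norm_jop hcs]
      exact (X.le_opNorm _).trans_eq (by rw [hn])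
  have hc : ∀ X w, conjX X w = jop M Ω (X (e.symm w)) := fun _ _ => rfl
  let Θ : (H →L[ℂ] H) →⋆ₐ[ℝ] (H →L[ℂ] H) :=
    { toFun := conjX
      map_one' := by ext w; rw [hc]; exact he w
      map_mul' := fun X Y => by
        ext w
        rw [mul_apply_eq_comp, hc, hc, hc]
        simp [show e.symm (jop M Ω (Y (e.symm w))) = Y (e.symm w) from e.symm_apply_apply _]
      map_zero' := by ext w; rw [hc]; simp
      map_add' := fun X Y => by ext w; simp [hc]
      commutes' := fun r => by
        ext w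
        rw [hc, Algebra.algebraMap_eq_smul_one, smul_apply, smul_apply, ← Complex.coe_smul,
          map_smulₛₗ, Complex.conj_ofReal, one_apply_eq_self, one_apply_eq_self, he,
          Complex.coe_smul]
      map_star' := fun X => by
        rw [ContinuousLinearMap.star_eq_adjoint (A := conjX X),
          ContinuousLinearMap.eq_adjoint_iff]
        intro a b
        rw [hc, hc]
        conv_lhs => rw [← he b, jop_inner hcs]
        conv_rhs => rw [← he a, jop_inner hcs]
        rw [← inner_conj_symm, inner_star_left, inner_conj_symm] }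
  have hΘc : Continuous Θ := by
    refine AddMonoidHomClass.continuous_of_bound Θ 1 fun X => ?_
    rw [one_mul]
    refine ContinuousLinearMap.opNorm_le_bound _ (norm_nonneg _) fun w => ?_
    show ‖conjX X w‖ ≤ _
    rw [hc, norm_jop hcs]
    exact (X.le_opNorm _).trans_eq (by rw [hn])
  have hΘR : Θ (rop M Ω) = cfc (fun r : ℝ => 2 - r) (rop M Ω) := by
    rw [cfc_sub _ _ (rop M Ω), cfc_const 2 (rop M Ω) rop_selfAdjoint,
      cfc_id' ℝ (rop M Ω) rop_selfAdjoint, Algebra.algebraMap_eq_smul_one, ← Complex.coe_smul]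
    ext w
    show conjX (rop M Ω) w = _
    rw [hc, jop_rop hcs, he]
    simp
  have h := StarAlgHomClass.map_cfc (S := ℝ) Θ φ (rop M Ω) hφ.continuousOn hΘc rop_selfAdjoint
    (rop_selfAdjoint.map Θ)
  rw [hΘR, ← cfc_comp' φ (fun r : ℝ => 2 - r) (rop M Ω) hφ.continuousOn (by fun_prop)
    rop_selfAdjoint] at h
  have h2 := congrArg (fun f : H →L[ℂ] H => f (jop M Ω v)) h
  rw [← h2]
  show _ = conjX _ (jop M Ω v)
  rw [hc]
  exact congrArg (fun w => jop M Ω (cfc φ (rop M Ω) w)) (e.symm_apply_apply v).symm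

theorem jop_cf (v : H) (φ : ℝ → ℂ) (hφ : Continuous φ) :
    jop M Ω (cf (rop M Ω) φ v) = cf (rop M Ω) (fun r => conj (φ (2 - r))) (jop M Ω v) := by
  rw [cf_split rop_selfAdjoint φ hφ, cf_split rop_selfAdjoint _ (by fun_prop)]
  simp only [add_apply, smul_apply, map_add, map_smulₛₗ, Complex.conj_re, Complex.conj_im,
    Complex.conj_I]
  rw [jop_real hcs v _ (by fun_prop), jop_real hcs v _ (by fun_prop), cfc_neg, neg_apply, smul_neg,
    neg_smul]

theorem jop_top_comm (v : H) : jop M Ω (top' M Ω v) = top' M Ω (jop M Ω v) := by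
  rw [top', jop_cf hcs v _ continuous_tfun]
  congr 2
  funext r
  simp only [tfun, Complex.conj_ofReal]
  rw [show (2 - r) * (2 - (2 - r)) = r * (2 - r) by ring]

theorem jop_invol (v : H) : jop M Ω (jop M Ω v) = v := by
  refine (dense_top hcs).induction_on v (isClosed_eq (by fun_prop) continuous_id) fun w => ?_
  refine (dense_top hcs).induction_on w (isClosed_eq (by fun_prop) (by fun_prop)) fun u => ?_
  rw [jop_top_comm hcs (top' M Ω u), jop_top hcs u, jop_top hcs, aop_aop, top_sq]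

end Vale.Agent.P132.Tomita
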