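import Vale.Agent.P132.Tomita.Sakai
import Vale.Agent.P132.Tomita.Polar

/-!
# The equation of Sakai and the standard subspace of the commutant
-/

namespace Vale.Agent.P132.Tomita

open scoped InnerProductSpace Topology ComplexOrder ComplexConjugate
open Filter

universe u

variable {H : Type u} [NormedAddCommGroup H] [InnerProductSpace ℂ H] [CompleteSpace H]
  {M : VonNeumannAlgebra H} {Ω : H}

attribute [local instance] InnerProductSpace.complexToReal

theorem aop_ksp {k : H} (hk : k ∈ ksp M Ω) :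
    aop M Ω k = (2 : ℂ) • k - rop M Ω k := by
  rw [aop, rop_apply, projK_eq_self hk, two_smul]
  abel

/-- `(P - Q) n Ω = (2 - R) n* Ω`. -/
theorem aop_alg {n : H →L[ℂ] H} (hn : n ∈ M) :
    aop M Ω (n Ω) = (2 : ℂ) • star n Ω - rop M Ω (star n Ω) := by
  set p := (1 / 2 : ℂ) • (n + star n) with hp
  set q := (Complex.I / 2) • (star n - n) with hq
  have e1 : n = p + Complex.I • q := by
    rw [hp, hq, smul_smul, ← mul_div_assoc, Complex.I_mul_I]; module
  have e2 : star n = p - Complex.I • q := by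
    rw [hp, hq, smul_smul, ← mul_div_assoc, Complex.I_mul_I]; module
  have hps : star p = p := by simp [hp, star_smul, add_comm]
  have hqs : star q = q := by simp [hq, star_smul, neg_div, ← smul_neg, neg_sub]
  have hpM : p ∈ M := smul_mem_alg M _ (add_mem hn (star_mem hn))
  have hqM : q ∈ M := smul_mem_alg M _ (sub_mem (star_mem hn) hn)
  clear_value p q
  rw [e2, e1, add_apply, sub_apply, smul_apply, aop_add, aop_smul, aop_ksp (mem_ksp hpM hps),
    aop_ksp (mem_ksp hqM hqs), Complex.conj_I, map_sub, map_smul]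
  module

theorem projIK_sa_commutant {h : H →L[ℂ] H} (hh : h ∈ M.commutant) (hs : star h = h) :
    projIK M Ω (h Ω) = 0 := by
  rw [projIK, smul_eq_zero]
  refine Or.inr ?_
  rw [← map_zero (projK M Ω)]
  refine projK_ext fun x hx hxs => ?_
  rw [inner_zero_right, Complex.zero_re, ← re_inner_neg_I, ← inner_conj_symm, Complex.conj_im,
    im_inner_ksp hh hs (mem_ksp hx hxs), neg_zero]

/-- The element of the algebra attached to an element of the commutant. -/
def Good (M : VonNeumannAlgebra H) (Ω : H) (a : H →L[ℂ] H) : Prop :=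
  ∃ m ∈ M, m Ω = rop M Ω (a Ω) ∧ star m Ω = aop M Ω (a Ω)

theorem good_add {a b : H →L[ℂ] H} (ha : Good M Ω a) (hb : Good M Ω b) : Good M Ω (a + b) := by
  obtain ⟨m, hm, h1, h2⟩ := ha
  obtain ⟨n, hn, h3, h4⟩ := hb
  refine ⟨m + n, add_mem hm hn, ?_, ?_⟩
  · rw [add_apply, add_apply, h1, h3, map_add]
  · rw [star_add, add_apply, add_apply, h2, h4, aop_add]

theorem good_smul {a : H →L[ℂ] H} (c : ℂ) (ha : Good M Ω a) : Good M Ω (c • a) := by
  obtain ⟨m, hm, h1, h2⟩ := ha
  refine ⟨c • m, smul_mem_alg M c hm, ?_, ?_⟩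
  · rw [smul_apply, smul_apply, h1, map_smul]
  · rw [star_smul, smul_apply, smul_apply, h2, aop_smul, Complex.star_def]

theorem good_of_unit (hcs : IsCS M Ω) {a : H →L[ℂ] H} (ha : a ∈ M.commutant) (h0 : 0 ≤ a)
    (h1 : a ≤ 1) : Good M Ω a := by
  obtain ⟨x, hx, hxs, hxe⟩ := sakai hcs ha h0 h1 (l := (1 / 2 : ℂ)) (by norm_num)
  have hP : projK M Ω (a Ω) = x Ω := by
    rw [← projK_eq_self (mem_ksp (Ω := Ω) hx hxs)]
    refine projK_ext fun m hm hms => ?_
    rw [hxe m hm, hms, ← inner_conj_symm (x Ω) (m Ω), ← map_mul, Complex.add_conj,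
      Complex.ofReal_re]
    simp
  have hQ := projIK_sa_commutant (Ω := Ω) ha h0.isSelfAdjoint.star_eq
  refine ⟨x, hx, ?_, ?_⟩
  · rw [rop_apply, hP, hQ, add_zero]
  · rw [hxs, aop, hP, hQ, sub_zero]

/-- Induction from the unit interval to a whole algebra. -/
theorem alg_induction (N : VonNeumannAlgebra H) {p : (H →L[ℂ] H) → Prop}
    (hadd : ∀ a b, p a → p b → p (a + b)) (hsmul : ∀ (c : ℂ) a, p a → p (c • a))
    (h : ∀ a ∈ N, 0 ≤ a → a ≤ 1 → p a) {a : H →L[ℂ] H} (ha : a ∈ N) : p a := by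
  have hone : p 1 := h 1 (one_mem N) zero_le_one le_rfl
  have hsa : ∀ b ∈ N, IsSelfAdjoint b → p b := by
    intro b hb hbs
    set s : ℝ := ‖b‖ + 1 with hs
    have hs0 : 0 < s := by positivity
    set e := cfc (fun r : ℝ => (r + s) / (2 * s)) b with he
    have h1 : b = (2 * s : ℂ) • e + (-s : ℂ) • (1 : H →L[ℂ] H) := by
      rw [he, show (2 * s : ℂ) = ((2 * s : ℝ) : ℂ) by push_cast; rfl, Complex.coe_smul,
        ← cfc_smul (2 * s) _ b, show (-s : ℂ) = ((-s : ℝ) : ℂ) by push_cast; rfl, Complex.coe_smul,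
        ← Algebra.algebraMap_eq_smul_one, ← cfc_const (-s) b, ← cfc_add (a := b) _ _]
      conv_lhs => rw [← cfc_id' ℝ b]
      refine cfc_congr fun r _ => ?_
      simp only [smul_eq_mul]
      field_simp
      ring
    have hr : ∀ r ∈ spectrum ℝ b, |r| ≤ s := fun r hr => by
      rcases subsingleton_or_nontrivial (H →L[ℂ] H) with hsub | hnt
      · simp [spectrum.of_subsingleton] at hr
      · have := spectrum.norm_le_norm_of_mem hr
        rw [Real.norm_eq_abs] at this
        linarith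
    rw [h1]
    refine hadd _ _ (hsmul _ _ (h e (cfc_mem_alg N hb _) ?_ ?_)) (hsmul _ _ hone)
    · refine cfc_nonneg fun r hr' => div_nonneg ?_ (by positivity)
      linarith [(abs_le.1 (hr r hr')).1]
    · refine cfc_le_one _ _ fun r hr' => ?_
      rw [div_le_one (by positivity)]
      linarith [(abs_le.1 (hr r hr')).2]
  set x := (1 / 2 : ℂ) • (a + star a) with hx
  set y := (Complex.I / 2) • (star a - a) with hy
  have e1 : a = x + Complex.I • y := by
    rw [hx, hy, smul_smul, ← mul_div_assoc, Complex.I_mul_I]; module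
  have hxs : IsSelfAdjoint x := by simp [IsSelfAdjoint, hx, star_smul, add_comm]
  have hys : IsSelfAdjoint y := by
    simp [IsSelfAdjoint, hy, star_smul, neg_div, ← smul_neg, neg_sub]
  rw [e1]
  exact hadd _ _ (hsa x (smul_mem_alg N _ (add_mem ha (star_mem ha))) hxs)
    (hsmul _ _ (hsa y (smul_mem_alg N _ (sub_mem (star_mem ha) ha)) hys))

theorem good (hcs : IsCS M Ω) {a : H →L[ℂ] H} (ha : a ∈ M.commutant) : Good M Ω a :=
  alg_induction (p := Good M Ω) M.commutant (fun _ _ hu hv => good_add hu hv)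
    (fun c _ hu => good_smul c hu) (fun _ hb hb0 hb1 => good_of_unit hcs hb hb0 hb1) ha

/-- The conjugate of an operator by the modular conjugation. -/
noncomputable def cjop (M : VonNeumannAlgebra H) (Ω : H) (a : H →L[ℂ] H) : H →L[ℂ] H :=
  (jop M Ω).comp (a.comp (jop M Ω))

theorem cjop_apply (a : H →L[ℂ] H) (v : H) : cjop M Ω a v = jop M Ω (a (jop M Ω v)) := rfl

theorem jop_aop (hcs : IsCS M Ω) (v : H) : top' M Ω (jop M Ω v) = aop M Ω v := by
  rw [← jop_top_comm hcs, jop_top hcs]

/-- Sakai's equation for the conjugate of a positive contraction of the commutant. -/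
theorem sakaiEq (hcs : IsCS M Ω) {a : H →L[ℂ] H} (ha : a ∈ M.commutant) (h0 : 0 ≤ a)
    (h1 : a ≤ 1) : SakaiEq M (rop M Ω) (cjop M Ω a) := by
  intro l hl
  obtain ⟨x, hx, hxs, hxe⟩ := sakai hcs ha h0 h1 hl
  refine ⟨x, hx, ?_⟩
  have hR : star (rop M Ω) = rop M Ω := rop_selfAdjoint.star_eq
  have hstep : ∀ (b p : H →L[ℂ] H), ∀ q ∈ M, ∀ c : H,
      p Ω = aop M Ω (b Ω) → star q Ω = c →
        ⟪p Ω, (q * x) Ω⟫_ℂ = ⟪c, x ((2 : ℂ) • b Ω - rop M Ω (b Ω))⟫_ℂ := by
    intro b p q hq c hp hqc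
    rw [hp, aop_symm, aop_alg (mul_mem hq hx), star_mul, hxs, mul_apply_eq_comp, hqc,
      inner_sub_left, inner_smul_left, inner_sa hR, inner_sa hxs, inner_sa hxs, map_sub,
      map_smul, inner_sub_right, inner_smul_right]
    simp [map_ofNat]
  have key : ∀ b ∈ M.commutant, ∀ c ∈ M.commutant,
      ⟪cf (rop M Ω) tfun (b Ω), cjop M Ω a (cf (rop M Ω) tfun (c Ω))⟫_ℂ =
        l * ⟪rop M Ω (b Ω), x ((2 : ℂ) • c Ω - rop M Ω (c Ω))⟫_ℂ +
          conj l * ⟪(2 : ℂ) • b Ω - rop M Ω (b Ω), x (rop M Ω (c Ω))⟫_ℂ := by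
    intro b hb c hc
    obtain ⟨q₀, hq₀, hq1, hq2⟩ := good hcs hb
    obtain ⟨p₀, hp₀, hp1, hp2⟩ := good hcs hc
    have hlhs : ⟪cf (rop M Ω) tfun (b Ω), cjop M Ω a (cf (rop M Ω) tfun (c Ω))⟫_ℂ =
        ⟪aop M Ω (c Ω), a (aop M Ω (b Ω))⟫_ℂ := by
      show ⟪top' M Ω (b Ω), jop M Ω (a (jop M Ω (top' M Ω (c Ω))))⟫_ℂ = _
      conv_lhs => rw [← jop_invol hcs (top' M Ω (b Ω)), jop_inner hcs]
      rw [jop_top hcs, jop_top hcs, inner_sa h0.isSelfAdjoint.star_eq]
    have hA : ⟪star p₀ Ω, a (star q₀ Ω)⟫_ℂ = ⟪(q₀ * star p₀) Ω, a Ω⟫_ℂ := by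
      rw [← commute_apply (star_mem hq₀) ha, mul_apply_eq_comp]
      conv_rhs => rw [← star_star q₀, inner_star_left]
    rw [hlhs, ← hp2, ← hq2, hA, hxe _ (mul_mem hq₀ (star_mem hp₀))]
    congr 2
    · rw [mul_apply_eq_comp]
      conv_lhs => rw [← star_star q₀, inner_star_left]
      rw [← mul_apply_eq_comp, hstep c (star p₀)
        (star q₀) (star_mem hq₀) (rop M Ω (b Ω)) hp2 (by rwa [star_star])]
    · rw [star_mul, star_star, mul_apply_eq_comp, ← inner_conj_symm]
      conv_lhs => rw [← star_star p₀, inner_star_left]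
      rw [← mul_apply_eq_comp, hstep b (star q₀)
        (star p₀) (star_mem hp₀) (rop M Ω (c Ω)) hq2 (by rwa [star_star])]
      rw [← inner_conj_symm ((2 : ℂ) • b Ω - rop M Ω (b Ω)), inner_sa hxs]
  have hd : DenseRange fun b : M.commutant => (b : H →L[ℂ] H) Ω := by
    intro v
    rw [Metric.mem_closure_iff]
    intro e he
    obtain ⟨b, hb, hbv⟩ := (isCS_commutant hcs).cyclic v (e / 2) (half_pos he)
    exact ⟨b Ω, ⟨⟨b, hb⟩, rfl⟩, by rw [dist_comm, dist_eq_norm]; linarith⟩
  intro v w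
  refine hd.induction_on v (isClosed_eq (by fun_prop) (by fun_prop)) fun b => ?_
  refine hd.induction_on w (isClosed_eq (by fun_prop) (by fun_prop)) fun c => ?_
  exact key b b.2 c c.2

/-- The standard subspace of the commutant is the kernel of `Q`. -/
theorem projK_commutant (hcs : IsCS M Ω) (v : H) :
    projK M.commutant Ω v = v - projIK M Ω v := by
  have hsub : ∀ w ∈ ksp M.commutant Ω, projIK M Ω w = 0 := by
    intro w hw
    refine closure_minimal (t := {w : H | projIK M Ω w = 0}) ?_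
      (isClosed_eq (by unfold projIK; fun_prop) continuous_const) hw
    rintro _ ⟨b, hb, hbs, rfl⟩
    exact projIK_sa_commutant hb hbs
  refine Submodule.eq_starProjection_of_mem_of_inner_eq_zero ?_ fun w hw => ?_
  · set η := v - projIK M Ω v with hη
    have h0 : projIK M Ω η = 0 := by
      rw [hη, sub_eq_add_neg, projIK_add, projIK_neg, projIK_idem, add_neg_cancel]
    rw [projIK, smul_eq_zero, or_iff_right Complex.I_ne_zero] at h0
    have him : ∀ m ∈ M, star m = m → ⟪η, m Ω⟫_ℂ = ⟪m Ω, η⟫_ℂ := by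
      intro m hm hms
      have := inner_ksp_zero h0 hm hms
      rw [← re_inner_neg_I] at this
      rw [← inner_conj_symm]
      exact Complex.conj_eq_iff_im.2 this
    have hall : ∀ m ∈ M.commutant.commutant, ⟪η, m Ω⟫_ℂ = ⟪star m Ω, η⟫_ℂ := by
      intro m hm
      rw [VonNeumannAlgebra.commutant_commutant] at hm
      set p := (1 / 2 : ℂ) • (m + star m) with hp
      set q := (Complex.I / 2) • (star m - m) with hq
      have e1 : m = p + Complex.I • q := by
        rw [hp, hq, smul_smul, ← mul_div_assoc, Complex.I_mul_I]; module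
      have e2 : star m = p - Complex.I • q := by
        rw [hp, hq, smul_smul, ← mul_div_assoc, Complex.I_mul_I]; module
      have hps : star p = p := by simp [hp, star_smul, add_comm]
      have hqs : star q = q := by simp [hq, star_smul, neg_div, ← smul_neg, neg_sub]
      have hpM : p ∈ M := smul_mem_alg M _ (add_mem hm (star_mem hm))
      have hqM : q ∈ M := smul_mem_alg M _ (sub_mem (star_mem hm) hm)
      clear_value p q η
      rw [e2, e1, add_apply, sub_apply, smul_apply, inner_add_right, inner_sub_left,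
        inner_smul_left, inner_smul_right, him p hpM hps, him q hqM hqs, Complex.conj_I]
      ring
    have hcl : IsClosed (ksp M.commutant Ω : Set H) := Submodule.isClosed_topologicalClosure _
    refine hcl.closure_subset (Metric.mem_closure_iff.2 fun e he => ?_)
    obtain ⟨z, hz, hz1, hz2⟩ := graph_max M.commutant (ζ := Ω) (η := η) (θ := η)
      (fun u hu => ext_alg hcs fun x hx => hu x (by rwa [VonNeumannAlgebra.commutant_commutant]))
      hall (half_pos he)
    refine ⟨((1 / 2 : ℂ) • (z + star z)) Ω, mem_ksp (smul_mem_alg _ _ (add_mem hz (star_mem hz)))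
      (by simp [star_smul, add_comm]), ?_⟩
    rw [dist_comm, dist_eq_norm, smul_apply, add_apply,
      show (1 / 2 : ℂ) • (z Ω + star z Ω) - η = (1 / 2 : ℂ) • ((z Ω - η) + (star z Ω - η)) by
        module, norm_smul]
    refine lt_of_le_of_lt (mul_le_mul_of_nonneg_left (norm_add_le _ _) (norm_nonneg _)) ?_
    norm_num
    linarith
  · rw [sub_sub_cancel, rinner_eq, re_projIK_symm, hsub w hw, inner_zero_right, Complex.zero_re]

theorem projIK_commutant (hcs : IsCS M Ω) (v : H) :
    projIK M.commutant Ω v = v - projK M Ω v := by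
  rw [projIK, projK_commutant hcs, projIK_neg, projIK_I, smul_sub, smul_neg, smul_neg, I_I, I_I,
    neg_neg, neg_neg]

theorem rop_commutant (hcs : IsCS M Ω) :
    rop M.commutant Ω = (2 : ℂ) • (1 : H →L[ℂ] H) - rop M Ω := by
  ext v
  rw [rop_apply, projK_commutant hcs, projIK_commutant hcs, sub_apply, smul_apply,
    one_apply_eq_self, rop_apply, two_smul]
  abel

theorem aop_commutant (hcs : IsCS M Ω) (v : H) : aop M.commutant Ω v = aop M Ω v := by
  rw [aop, aop, projK_commutant hcs, projIK_commutant hcs]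
  abel

theorem cf_rop_commutant (hcs : IsCS M Ω) (φ : ℝ → ℂ) (hφ : Continuous φ) :
    cf (rop M.commutant Ω) φ = cf (rop M Ω) (fun r => φ (2 - r)) := by
  have h2 : cfc (fun r : ℝ => 2 - r) (rop M Ω) = rop M.commutant Ω := by
    rw [cfc_sub _ _ (rop M Ω), cfc_const 2 (rop M Ω) rop_selfAdjoint,
      cfc_id' ℝ (rop M Ω) rop_selfAdjoint, Algebra.algebraMap_eq_smul_one, rop_commutant hcs,
      ← Complex.coe_smul]
    norm_num
  have h : ∀ g : ℝ → ℝ, Continuous g →
      cfc g (rop M.commutant Ω) = cfc (fun r => g (2 - r)) (rop M Ω) := fun g hg => by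
    rw [← h2, ← cfc_comp' g (fun r : ℝ => 2 - r) (rop M Ω) hg.continuousOn (by fun_prop)
      rop_selfAdjoint]
  rw [cf_split rop_selfAdjoint φ hφ,
    cf_split rop_selfAdjoint (fun r => φ (2 - r)) (by fun_prop), h _ (by fun_prop),
    h _ (by fun_prop)]

theorem top_commutant (hcs : IsCS M Ω) : top' M.commutant Ω = top' M Ω := by
  rw [top', cf_rop_commutant hcs _ continuous_tfun, top']
  congr 1
  funext r
  simp only [tfun]
  rw [show (2 - r) * (2 - (2 - r)) = r * (2 - r) by ring]

theorem jop_commutant (hcs : IsCS M Ω) (v : H) : jop M.commutant Ω v = jop M Ω v := by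
  refine (dense_top hcs).induction_on v (isClosed_eq (by fun_prop) (by fun_prop)) fun w => ?_
  conv_lhs => rw [← top_commutant hcs, jop_top (isCS_commutant hcs), aop_commutant hcs]
  rw [jop_top hcs]

theorem rop_omega : rop M Ω Ω = Ω := by
  have h : projIK M Ω ((1 : H →L[ℂ] H) Ω) = 0 :=
    projIK_sa_commutant (one_mem _) (star_one _)
  rw [one_apply_eq_self] at h
  rw [rop_apply, h, add_zero]
  exact projK_eq_self (by simpa using mem_ksp (Ω := Ω) (one_mem M) (star_one _))

end Vale.Agent.P132.Tomita
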