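import Vale.Agent.P132.Iface

/-!
# Functions of the operator of a standard subspace
-/

namespace Vale.Agent.P132.Tomita

open scoped InnerProductSpace Topology ComplexOrder ComplexConjugate
open Filter MeasureTheory

universe u

variable {H : Type u} [NormedAddCommGroup H] [InnerProductSpace ℂ H] [CompleteSpace H]

/-- A function of a selfadjoint operator. -/
noncomputable def cf (R : H →L[ℂ] H) (φ : ℝ → ℂ) : H →L[ℂ] H := cfc (fun z : ℂ => φ z.re) R

/-- `√(r (2 - r))`. -/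
noncomputable def tfun (r : ℝ) : ℂ := ((√(r * (2 - r)) : ℝ) : ℂ)

/-- `log ((2 - r) / r)`. -/
noncomputable def lfun (r : ℝ) : ℝ := Real.log ((2 - r) / r)

/-- `r (2 - r) ((2 - r) / r)^(it)`. -/
noncomputable def hfun (t r : ℝ) : ℂ :=
  ((r * (2 - r) : ℝ) : ℂ) * Complex.exp (Complex.I * (t : ℂ) * (lfun r : ℂ))

/-- An operator between `0` and `2`, injective at both ends, with the imaginary powers of
`(2 - R) / R`. -/
structure ModPair (R : H →L[ℂ] H) (U : ℝ → H →L[ℂ] H) : Prop where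
  sa : IsSelfAdjoint R
  spec : spectrum ℝ R ⊆ Set.Icc 0 2
  inj : ∀ v, R v = 0 → v = 0
  inj_two : ∀ v, R v = (2 : ℂ) • v → v = 0
  U_zero : U 0 = 1
  U_add : ∀ s t, U (s + t) = U s * U t
  U_star : ∀ t, star (U t) = U (-t)
  U_cont : ∀ v, Continuous fun t => U t v
  U_comm : ∀ t, U t * R = R * U t
  U_spec : ∀ t, U t * cf R (fun r => ((r * (2 - r) : ℝ) : ℂ)) = cf R (hfun t)

/-- The band equations of Sakai for `c` in `S`. -/
def SakaiEq (S : VonNeumannAlgebra H) (R c : H →L[ℂ] H) : Prop :=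
  ∀ l : ℂ, 0 < l.re → ∃ x ∈ S, ∀ v w : H,
    ⟪cf R tfun v, c (cf R tfun w)⟫_ℂ =
      l * ⟪R v, x ((2 : ℂ) • w - R w)⟫_ℂ + conj l * ⟪(2 : ℂ) • v - R v, x (R w)⟫_ℂ

/-- Contour: the orbit of `c` lies in `S`. -/
def StmtOrbit.{v} : Prop :=
  ∀ (H : Type v) [NormedAddCommGroup H] [InnerProductSpace ℂ H] [CompleteSpace H]
    (R : H →L[ℂ] H) (U : ℝ → H →L[ℂ] H) (S : VonNeumannAlgebra H) (c : H →L[ℂ] H),
    ModPair R U → SakaiEq S R c → ∀ t, U t * c * U (-t) ∈ S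

/-- Shifting a Gaussian window by half the imaginary unit. -/
def StmtShift.{v} : Prop :=
  ∀ (H : Type v) [NormedAddCommGroup H] [InnerProductSpace ℂ H] [CompleteSpace H]
    (R : H →L[ℂ] H) (U : ℝ → H →L[ℂ] H), ModPair R U → ∀ T E : ℝ, 0 < T → ∀ ξ : H,
      (∫ t : ℝ, gauss T E (t : ℂ) • U t ((2 : ℂ) • ξ - R ξ)) =
        ∫ t : ℝ, gauss T E ((t : ℂ) + Complex.I / 2) • U t (cf R tfun ξ)

end Vale.Agent.P132.Tomita
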