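import Vale.Agent.P132.Tomita.Powers
import Vale.Agent.P132.Fixed.Gauss

/-!
# Tomita's theorem
-/

namespace Vale.Agent.P132.Tomita

open scoped InnerProductSpace Topology ComplexOrder ComplexConjugate
open Filter MeasureTheory

universe u

variable {H : Type u} [NormedAddCommGroup H] [InnerProductSpace ℂ H] [CompleteSpace H]
  {M : VonNeumannAlgebra H} {Ω : H}

theorem cjop_add (a b : H →L[ℂ] H) : cjop M Ω (a + b) = cjop M Ω a + cjop M Ω b := by
  ext v
  simp [cjop_apply]

theorem cjop_smul (c : ℂ) (a : H →L[ℂ] H) : cjop M Ω (c • a) = conj c • cjop M Ω a := by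
  ext v
  simp [cjop_apply]

theorem orbit (hO : StmtOrbit.{u}) (hcs : IsCS M Ω) {a : H →L[ℂ] H} (ha : a ∈ M.commutant)
    (t : ℝ) : uop M Ω t * cjop M Ω a * uop M Ω (-t) ∈ M := by
  refine alg_induction M.commutant (p := fun a => uop M Ω t * cjop M Ω a * uop M Ω (-t) ∈ M)
    (fun b c hb hc => ?_) (fun z b hb => ?_)
    (fun b hb h0 h1 => hO H _ _ M _ (modPair hcs) (sakaiEq hcs hb h0 h1) t) ha
  · rw [cjop_add, mul_add, add_mul]
    exact add_mem hb hc
  · rw [cjop_smul, mul_smul_comm, smul_mul_assoc]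
    exact smul_mem_alg M _ hb

theorem cjop_invol (hcs : IsCS M Ω) (a : H →L[ℂ] H) : cjop M Ω (cjop M Ω a) = a := by
  ext v
  rw [cjop_apply, cjop_apply, jop_invol hcs, jop_invol hcs]

theorem cjop_mem_commutant (hO : StmtOrbit.{u}) (hcs : IsCS M Ω) {x : H →L[ℂ] H} (hx : x ∈ M) :
    cjop M Ω x ∈ M.commutant := by
  have h := orbit hO (isCS_commutant hcs)
    (a := x) (by rwa [VonNeumannAlgebra.commutant_commutant]) 0
  rw [uop_zero (isCS_commutant hcs), neg_zero, uop_zero (isCS_commutant hcs), one_mul,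
    mul_one] at h
  have e : cjop M.commutant Ω x = cjop M Ω x := by
    ext v
    rw [cjop_apply, cjop_apply, jop_commutant hcs, jop_commutant hcs]
  rwa [e] at h

theorem top_uop (hcs : IsCS M Ω) (t : ℝ) (v : H) :
    top' M Ω (uop M Ω t v) = uop M Ω t (top' M Ω v) := by
  refine (dense_wop hcs).induction_on v (isClosed_eq (by fun_prop) (by fun_prop)) fun w => ?_
  rw [uop_wop hcs, top', ← mul_apply_eq_comp, cf_comm, mul_apply_eq_comp,
    ← mul_apply_eq_comp (cf (rop M Ω) tfun) (cf (rop M Ω) wfun), cf_comm, mul_apply_eq_comp,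
    uop_wop hcs]

theorem kms_eq (hS : StmtShift.{u}) (hcs : IsCS M Ω) {x : H →L[ℂ] H} (hx : x ∈ M) {T : ℝ}
    (E : ℝ) (hT : 0 < T) :
    jop M Ω (∫ t : ℝ, starRingEnd ℂ (gauss T E (t : ℂ)) • uop M Ω t (star x Ω)) =
      ∫ t : ℝ, gauss T E ((t : ℂ) + Complex.I / 2) • uop M Ω t (x Ω) := by
  have hint : ∀ (c : ℝ → ℂ), Integrable c → ∀ ξ : H,
      Integrable fun t => c t • uop M Ω t ξ := by
    intro c hc ξ
    refine (hc.norm.mul_const ‖ξ‖).mono'
      (hc.1.smul (uop_cont hcs ξ).aestronglyMeasurable) ?_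
    filter_upwards with t
    rw [norm_smul, norm_uop hcs]
  let Jr : H →ₗᵢ[ℝ] H :=
    { toFun := jop M Ω
      map_add' := map_add _
      map_smul' := fun r v => by
        change jop M Ω (r • v) = r • jop M Ω v
        rw [← Complex.coe_smul, map_smulₛₗ, Complex.conj_ofReal, Complex.coe_smul]
      norm_map' := norm_jop hcs }
  have e1 : jop M Ω (∫ t : ℝ, starRingEnd ℂ (gauss T E (t : ℂ)) • uop M Ω t (star x Ω)) =
      ∫ t : ℝ, gauss T E (t : ℂ) • uop M Ω t (jop M Ω (star x Ω)) := by
    refine (Jr.integral_comp_comm (μ := volume) _).symm.trans ?_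
    refine integral_congr_ae (Eventually.of_forall fun t => ?_)
    show jop M Ω (_ • _) = _
    rw [map_smulₛₗ, Complex.conj_conj, jop_uop hcs]
  have hgi := Fixed.integrable_gauss hT E
  have hgs : Integrable fun t : ℝ => gauss T E ((t : ℂ) + Complex.I / 2) := by
    simp only [Fixed.gauss_shift]
    exact (Fixed.integrable_gauss hT _).const_mul _
  rw [e1, ← sub_eq_zero]
  refine top_inj hcs _ ?_
  rw [map_sub, sub_eq_zero, ← (top' M Ω).integral_comp_comm (hint _ hgi _),
    ← (top' M Ω).integral_comp_comm (hint _ hgs _)]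
  simp only [map_smul, top_uop hcs, jop_aop hcs, aop_alg (star_mem hx), star_star]
  exact hS H _ _ (modPair hcs) T E hT (x Ω)

/-- Tomita's theorem, from the contour argument. -/
theorem stmtModular_of (hO : StmtOrbit.{u}) (hS : StmtShift.{u}) : Iface.StmtModular.{u} := by
  intro H _ _ _ M Ω hcs
  exact ⟨
    { U := uop M Ω
      J := jop M Ω
      U_zero := uop_zero hcs
      U_add := uop_add hcs
      U_star := uop_star hcs
      U_cont := uop_cont hcs
      U_omega := uop_omega hcs
      U_conj := fun t x hx => by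
        have h := orbit hO hcs (cjop_mem_commutant hO hcs hx) t
        rwa [cjop_invol hcs] at h
      J_add := map_add _
      J_smul := fun c v => map_smulₛₗ _ c v
      J_invol := jop_invol hcs
      J_inner := jop_inner hcs
      J_omega := jop_omega hcs
      J_U := jop_uop hcs
      J_comm := fun x hx y hy v => commute_apply hx (cjop_mem_commutant hO hcs hy) v
      kms := fun x hx T E hT => kms_eq hS hcs hx E hT }⟩

end Vale.Agent.P132.Tomita
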