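import Vale.Agent.P132.Tomita.Equation

/-!
# The modular group of a standard subspace
-/

namespace Vale.Agent.P132.Tomita

open scoped InnerProductSpace Topology ComplexOrder ComplexConjugate
open Filter

universe u

variable {H : Type u} [NormedAddCommGroup H] [InnerProductSpace ℂ H] [CompleteSpace H]
  {M : VonNeumannAlgebra H} {Ω : H}

/-- The imaginary powers of `(2 - R) / R`. -/
noncomputable def uop (M : VonNeumannAlgebra H) (Ω : H) (t : ℝ) : H →L[ℂ] H :=
  LinearMap.extendOfNorm (cf (rop M Ω) (hfun t)).toLinearMap (cf (rop M Ω) wfun).toLinearMap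

theorem conj_exp_I (t r : ℝ) :
    conj (Complex.exp (Complex.I * (t : ℂ) * (r : ℂ))) =
      Complex.exp (Complex.I * ((-t : ℝ) : ℂ) * (r : ℂ)) := by
  rw [← Complex.exp_conj]
  simp

theorem conj_hfun (t r : ℝ) : conj (hfun t r) = hfun (-t) r := by
  rw [hfun, map_mul, Complex.conj_ofReal, conj_exp_I, hfun]

theorem hfun_mul (s t r : ℝ) : hfun s r * hfun t r = hfun (s + t) r * wfun r := by
  simp only [hfun, wfun]
  rw [show Complex.I * ((s + t : ℝ) : ℂ) * (lfun r : ℂ) =
    Complex.I * (s : ℂ) * (lfun r : ℂ) + Complex.I * (t : ℂ) * (lfun r : ℂ) by push_cast; ring,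
    Complex.exp_add]
  ring

theorem hfun_zero : hfun 0 = wfun := by
  funext r
  simp [hfun, wfun]

theorem hfun_reflect (t r : ℝ) : hfun t (2 - r) = hfun (-t) r := by
  have : lfun (2 - r) = -lfun r := by
    rw [lfun, lfun, sub_sub_cancel, ← Real.log_inv, inv_div]
  rw [hfun, hfun, this, sub_sub_cancel, mul_comm (2 - r) r]
  congr 2
  push_cast
  ring

theorem norm_cf_hfun (t : ℝ) (v : H) :
    ‖cf (rop M Ω) (hfun t) v‖ = ‖cf (rop M Ω) wfun v‖ := by
  refine (pow_left_inj₀ (norm_nonneg _) (norm_nonneg _) two_ne_zero).1 ?_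
  rw [← inner_self_eq_norm_sq (𝕜 := ℂ), ← inner_self_eq_norm_sq (𝕜 := ℂ),
    inner_sa star_cf_wfun, ← mul_apply_eq_comp (cf (rop M Ω) wfun),
    ← cf_mul _ _ continuous_wfun continuous_wfun]
  congr 1
  conv_lhs => rw [← star_star (cf (rop M Ω) (hfun t)), inner_star_left, star_star]
  rw [← mul_apply_eq_comp, cf_star, ← cf_mul (fun r => conj (hfun t r)) _
    (Complex.continuous_conj.comp (continuous_hfun t)) (continuous_hfun t)]
  congr 3
  funext r
  rw [conj_hfun, hfun_mul, neg_add_cancel, hfun_zero]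

theorem wop_inj (hcs : IsCS M Ω) (v : H) (h : cf (rop M Ω) wfun v = 0) : v = 0 := by
  rw [← cf_tfun_sq rop_selfAdjoint spec_rop, mul_apply_eq_comp] at h
  exact top_inj hcs v (top_inj hcs _ h)

theorem dense_wop (hcs : IsCS M Ω) : DenseRange (cf (rop M Ω) wfun) :=
  denseRange_of_sa star_cf_wfun (wop_inj hcs)

theorem eigen (φ : ℝ → ℂ) (hφ : Continuous φ) : cf (rop M Ω) φ Ω = φ 1 • Ω := by
  have hR : IsSelfAdjoint (rop M Ω) := rop_selfAdjoint
  set ψ : ℝ → ℂ := fun r => φ r - φ 1 with hψ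
  have hψc : Continuous ψ := hφ.sub continuous_const
  have h1 : cf (rop M Ω) φ = cf (rop M Ω) ψ + φ 1 • (1 : H →L[ℂ] H) := by
    have h := cf_add (R := rop M Ω) ψ (fun _ => φ 1) hψc continuous_const
    simp only [hψ, sub_add_cancel] at h
    rw [h, hψ]
    congr 1
    rw [cf, cfc_const (φ 1) (rop M Ω) hR.isStarNormal, Algebra.algebraMap_eq_smul_one]
  suffices h0 : cf (rop M Ω) ψ Ω = 0 by
    rw [h1, add_apply, h0, zero_add, smul_apply, one_apply_eq_self]
  rw [← norm_le_zero_iff]
  refine le_of_forall_pos_le_add fun e he => ?_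
  rw [zero_add]
  obtain ⟨B, hB⟩ := (isCompact_Icc (a := (0 : ℝ)) (b := 2)).exists_bound_of_continuousOn
    hψc.continuousOn
  have hB0 : 0 ≤ B := (norm_nonneg _).trans (hB 1 ⟨zero_le_one, one_le_two⟩)
  set e' : ℝ := e / (‖Ω‖ + 1) with he'
  have he'0 : 0 < e' := by positivity
  obtain ⟨d, hd, hd1⟩ := Metric.continuous_iff.1 hψc 1 e' he'0
  set η : ℝ := d ^ 2 * e' / (B + 1) with hη
  have hη0 : 0 < η := by positivity
  set g : ℝ → ℂ := fun r => ψ r * (((r - 1) / ((r - 1) ^ 2 + η) : ℝ) : ℂ) with hg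
  have hgc : Continuous g := by
    refine hψc.mul (Complex.continuous_ofReal.comp ?_)
    exact Continuous.div (by fun_prop) (by fun_prop) fun r => by positivity
  have hline : Continuous fun r : ℝ => ((r - 1 : ℝ) : ℂ) := by fun_prop
  have hzero : cf (rop M Ω) (fun r => g r * ((r - 1 : ℝ) : ℂ)) Ω = 0 := by
    rw [cf_mul _ _ hgc hline, mul_apply_eq_comp]
    have h : cf (rop M Ω) (fun r : ℝ => ((r - 1 : ℝ) : ℂ)) + 1 = rop M Ω := by
      rw [← cfc_const_one ℂ (rop M Ω) hR.isStarNormal]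
      show _ + cf (rop M Ω) (fun _ => 1) = _
      rw [← cf_add _ _ hline continuous_const]
      conv_rhs => rw [← cf_id hR]
      congr 1
      funext r
      push_cast
      ring
    have h2 := congrArg (fun f : H →L[ℂ] H => f Ω) h
    simp only [add_apply, one_apply_eq_self, rop_omega] at h2
    rw [add_eq_right.1 h2, map_zero]
  have hbound : ‖cf (rop M Ω) (fun r => ψ r - g r * ((r - 1 : ℝ) : ℂ))‖ ≤ e' := by
    refine norm_cfc_le he'0.le fun z hz => ?_
    have hr := spec_rop (re_mem_spectrum hR hz)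
    set r := z.re
    have e1 : ψ r - g r * ((r - 1 : ℝ) : ℂ) = ψ r * ((η / ((r - 1) ^ 2 + η) : ℝ) : ℂ) := by
      simp only [hg]
      rw [mul_assoc, ← Complex.ofReal_mul, ← mul_one_sub, ← Complex.ofReal_one,
        ← Complex.ofReal_sub]
      congr 2
      field_simp
      ring
    show ‖ψ r - g r * ((r - 1 : ℝ) : ℂ)‖ ≤ e'
    rw [e1, norm_mul, Complex.norm_real, Real.norm_of_nonneg (by positivity)]
    rcases lt_or_ge (dist r 1) d with hlt | hge
    · have h := hd1 r hlt
      rw [show ψ 1 = 0 by simp [hψ], dist_zero_right] at h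
      calc ‖ψ r‖ * (η / ((r - 1) ^ 2 + η)) ≤ ‖ψ r‖ * 1 := by
            refine mul_le_mul_of_nonneg_left ?_ (norm_nonneg _)
            rw [div_le_one (by positivity)]
            linarith [sq_nonneg (r - 1)]
        _ ≤ e' := by linarith
    · rw [Real.dist_eq] at hge
      have h2 : d ^ 2 ≤ (r - 1) ^ 2 := by rw [← sq_abs (r - 1)]; gcongr
      calc ‖ψ r‖ * (η / ((r - 1) ^ 2 + η)) ≤ (B + 1) * (η / d ^ 2) := by
            refine mul_le_mul ((hB r hr).trans (by linarith)) ?_ (by positivity) (by positivity)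
            gcongr
            linarith
        _ = e' := by rw [hη]; field_simp
  have h3 : cf (rop M Ω) ψ Ω = cf (rop M Ω) (fun r => ψ r - g r * ((r - 1 : ℝ) : ℂ)) Ω := by
    have h := cf_add (R := rop M Ω) (fun r => ψ r - g r * ((r - 1 : ℝ) : ℂ))
      (fun r => g r * ((r - 1 : ℝ) : ℂ)) (hψc.sub (hgc.mul hline)) (hgc.mul hline)
    simp only [sub_add_cancel] at h
    rw [h, add_apply, hzero, add_zero]
  rw [h3]
  refine (ContinuousLinearMap.le_of_opNorm_le _ hbound Ω).trans ?_
  rw [he', div_mul_eq_mul_div, div_le_iff₀ (by positivity)]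
  nlinarith [norm_nonneg Ω]

variable (hcs : IsCS M Ω)
include hcs

theorem uop_wop (t : ℝ) (v : H) :
    uop M Ω t (cf (rop M Ω) wfun v) = cf (rop M Ω) (hfun t) v :=
  LinearMap.extendOfNorm_eq (dense_wop hcs)
    ⟨1, fun w => by rw [one_mul]; exact (norm_cf_hfun t w).le⟩ v

theorem norm_uop (t : ℝ) (v : H) : ‖uop M Ω t v‖ = ‖v‖ := by
  refine (dense_wop hcs).induction_on v (isClosed_eq (by fun_prop) (by fun_prop)) fun w => ?_
  rw [uop_wop hcs, norm_cf_hfun]

theorem uop_zero : uop M Ω 0 = 1 := by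
  ext v
  refine (dense_wop hcs).induction_on v (isClosed_eq (by fun_prop) (by fun_prop)) fun w => ?_
  rw [uop_wop hcs, hfun_zero]
  rfl

theorem uop_add (s t : ℝ) : uop M Ω (s + t) = uop M Ω s * uop M Ω t := by
  ext v
  refine (dense_wop hcs).induction_on v (isClosed_eq (by fun_prop) (by fun_prop)) fun w => ?_
  refine (dense_wop hcs).induction_on w (isClosed_eq (by fun_prop) (by fun_prop)) fun u => ?_
  rw [mul_apply_eq_comp, uop_wop hcs, uop_wop hcs, ← mul_apply_eq_comp (cf _ (hfun t)),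
    cf_comm, mul_apply_eq_comp, uop_wop hcs, ← mul_apply_eq_comp, ← mul_apply_eq_comp,
    ← cf_mul _ _ (continuous_hfun _) continuous_wfun,
    ← cf_mul _ _ (continuous_hfun _) (continuous_hfun _)]
  simp only [hfun_mul]

theorem uop_star (t : ℝ) : star (uop M Ω t) = uop M Ω (-t) := by
  rw [ContinuousLinearMap.star_eq_adjoint, eq_comm, ContinuousLinearMap.eq_adjoint_iff]
  intro v w
  let L : H →ₗᵢ[ℂ] H := ⟨(uop M Ω t).toLinearMap, norm_uop hcs t⟩
  have h := L.inner_map_map (uop M Ω (-t) v) w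
  rw [← h]
  show ⟪uop M Ω t (uop M Ω (-t) v), uop M Ω t w⟫_ℂ = _
  rw [← mul_apply_eq_comp, ← uop_add hcs, add_neg_cancel, uop_zero hcs, one_apply_eq_self]

theorem uop_comm (t : ℝ) : uop M Ω t * rop M Ω = rop M Ω * uop M Ω t := by
  ext v
  refine (dense_wop hcs).induction_on v (isClosed_eq (by fun_prop) (by fun_prop)) fun w => ?_
  have hid := cf_id (rop_selfAdjoint (M := M) (Ω := Ω))
  have h1 : rop M Ω (cf (rop M Ω) wfun w) = cf (rop M Ω) wfun (rop M Ω w) := by
    have h := cf_comm (R := rop M Ω) (fun r => (r : ℂ)) wfun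
    rw [hid] at h
    exact congrArg (fun f : H →L[ℂ] H => f w) h
  have h2 : cf (rop M Ω) (hfun t) (rop M Ω w) = rop M Ω (cf (rop M Ω) (hfun t) w) := by
    have h := cf_comm (R := rop M Ω) (hfun t) fun r => (r : ℂ)
    rw [hid] at h
    exact congrArg (fun f : H →L[ℂ] H => f w) h
  rw [mul_apply_eq_comp, mul_apply_eq_comp, h1, uop_wop hcs, uop_wop hcs, h2]

theorem uop_cont (v : H) : Continuous fun t => uop M Ω t v := by
  have hb : Continuous fun r : ℝ => r * ((2 - r) * Real.log (2 - r)) - (2 - r) * (r * Real.log r) :=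
    (continuous_id.mul (Real.continuous_mul_log.comp (continuous_const.sub continuous_id))).sub
      ((continuous_const.sub continuous_id).mul Real.continuous_mul_log)
  obtain ⟨B, hB⟩ := (isCompact_Icc (a := (0 : ℝ)) (b := 2)).exists_bound_of_continuousOn
    hb.continuousOn
  have hB0 : 0 ≤ B := (norm_nonneg _).trans (hB 1 ⟨zero_le_one, one_le_two⟩)
  have hdiff : ∀ s t : ℝ, ‖cf (rop M Ω) (hfun s) - cf (rop M Ω) (hfun t)‖ ≤ |s - t| * B := by
    intro s t
    rw [cf, cf, ← cfc_sub (a := rop M Ω) (fun z : ℂ => hfun s z.re) (fun z : ℂ => hfun t z.re)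
      ((continuous_hfun s).comp Complex.continuous_re).continuousOn
      ((continuous_hfun t).comp Complex.continuous_re).continuousOn]
    refine norm_cfc_le (by positivity) fun z hz => ?_
    have hr := spec_rop (re_mem_spectrum rop_selfAdjoint hz)
    set r := z.re
    have e1 : hfun s r - hfun t r = ((r * (2 - r) : ℝ) : ℂ) *
        Complex.exp (Complex.I * (t : ℂ) * (lfun r : ℂ)) *
          (Complex.exp (Complex.I * (((s - t) * lfun r : ℝ) : ℂ)) - 1) := by
      have h : Complex.exp (Complex.I * (s : ℂ) * (lfun r : ℂ)) =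
          Complex.exp (Complex.I * (t : ℂ) * (lfun r : ℂ)) *
            Complex.exp (Complex.I * (((s - t) * lfun r : ℝ) : ℂ)) := by
        rw [← Complex.exp_add]
        congr 1
        push_cast
        ring
      simp only [hfun]
      rw [h]
      ring
    have hl : r * (2 - r) * lfun r =
        r * ((2 - r) * Real.log (2 - r)) - (2 - r) * (r * Real.log r) := by
      by_cases h0 : r = 0
      · simp [h0]
      by_cases h2 : 2 - r = 0
      · simp [h2]
      rw [lfun, Real.log_div h2 h0]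
      ring
    rw [e1, norm_mul, norm_mul, Complex.norm_real, Complex.norm_exp]
    simp only [Complex.mul_re, Complex.I_re, Complex.I_im, Complex.ofReal_re, Complex.ofReal_im,
      Complex.mul_im, zero_mul, mul_zero, sub_zero, zero_add, one_mul, Real.exp_zero,
      mul_one]
    refine (mul_le_mul_of_nonneg_left Real.norm_exp_I_mul_ofReal_sub_one_le
      (norm_nonneg _)).trans ?_
    rw [← norm_mul, show r * (2 - r) * ((s - t) * lfun r) = (s - t) * (r * (2 - r) * lfun r) by
      ring, hl, norm_mul, Real.norm_eq_abs]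
    exact mul_le_mul_of_nonneg_left (hB r hr) (abs_nonneg _)
  have hcw : ∀ w, Continuous fun t => uop M Ω t (cf (rop M Ω) wfun w) := by
    intro w
    simp only [uop_wop hcs]
    refine Metric.continuous_iff.2 fun t e he => ⟨e / (B * ‖w‖ + 1), by positivity, fun s hs => ?_⟩
    rw [dist_eq_norm, ← sub_apply]
    refine lt_of_le_of_lt (ContinuousLinearMap.le_of_opNorm_le _ (hdiff s t) w) ?_
    rw [Real.dist_eq, lt_div_iff₀ (by positivity)] at hs
    nlinarith [abs_nonneg (s - t)]
  refine Metric.continuous_iff.2 fun t e he => ?_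
  obtain ⟨_, ⟨w, rfl⟩, hw⟩ := Metric.mem_closure_iff.1 (dense_wop hcs v) (e / 3) (by positivity)
  obtain ⟨d, hd, hd'⟩ := Metric.continuous_iff.1 (hcw w) t (e / 3) (by positivity)
  refine ⟨d, hd, fun s hs => ?_⟩
  have h := hd' s hs
  rw [dist_eq_norm] at h hw ⊢
  set z := cf (rop M Ω) wfun w
  have h1 : ‖uop M Ω s (v - z)‖ < e / 3 := by rw [norm_uop hcs]; exact hw
  have h2 : ‖uop M Ω t (z - v)‖ < e / 3 := by rw [norm_uop hcs, norm_sub_rev]; exact hw
  calc ‖uop M Ω s v - uop M Ω t v‖
      = ‖uop M Ω s (v - z) + (uop M Ω s z - uop M Ω t z) + uop M Ω t (z - v)‖ := by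
        congr 1
        simp only [map_sub]
        abel
    _ ≤ ‖uop M Ω s (v - z)‖ + ‖uop M Ω s z - uop M Ω t z‖ + ‖uop M Ω t (z - v)‖ :=
        norm_add₃_le
    _ < e := by linarith

theorem modPair : ModPair (rop M Ω) (uop M Ω) where
  sa := rop_selfAdjoint
  spec := spec_rop
  inj := rop_inj hcs
  inj_two := rop_inj_two hcs
  U_zero := uop_zero hcs
  U_add := uop_add hcs
  U_star := uop_star hcs
  U_cont := uop_cont hcs
  U_comm := uop_comm hcs
  U_spec t := ContinuousLinearMap.ext (uop_wop hcs t)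

theorem uop_omega (t : ℝ) : uop M Ω t Ω = Ω := by
  have h1 : cf (rop M Ω) wfun Ω = Ω := by
    rw [eigen _ continuous_wfun]
    simp only [wfun]
    norm_num
  have h := uop_wop hcs t Ω
  rw [h1, eigen _ (continuous_hfun t)] at h
  have h2 : hfun t 1 = 1 := by
    simp only [hfun, lfun]
    norm_num
  rwa [h2, one_smul] at h

theorem jop_omega : jop M Ω Ω = Ω := by
  have h1 : top' M Ω Ω = Ω := by
    rw [top', eigen _ continuous_tfun]
    simp only [tfun]
    norm_num
  have h := jop_top hcs Ω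
  rw [h1] at h
  rw [h]
  have h2 : Ω ∈ ksp M Ω := by simpa using mem_ksp (Ω := Ω) (one_mem M) (star_one _)
  rw [aop_ksp h2, rop_omega, two_smul, add_sub_cancel_right]

theorem jop_uop (t : ℝ) (v : H) : jop M Ω (uop M Ω t v) = uop M Ω t (jop M Ω v) := by
  refine (dense_wop hcs).induction_on v (isClosed_eq (by fun_prop) (by fun_prop)) fun w => ?_
  rw [uop_wop hcs, jop_cf hcs w _ (continuous_hfun t), jop_cf hcs w _ continuous_wfun]
  have e1 : (fun r => conj (wfun (2 - r))) = wfun := by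
    funext r
    rw [wfun, Complex.conj_ofReal, wfun]
    congr 1
    ring
  have e2 : (fun r => conj (hfun t (2 - r))) = hfun t := by
    funext r
    rw [hfun_reflect, conj_hfun, neg_neg]
  rw [e1, e2, uop_wop hcs]

end Vale.Agent.P132.Tomita
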