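import Vale.Agent.P132.Tomita.Std

/-!
# The linear Radon-Nikodym theorem of Sakai
-/

namespace Vale.Agent.P132.Tomita

open scoped InnerProductSpace Topology ComplexOrder ComplexConjugate
open Filter

universe u

variable {H : Type u} [NormedAddCommGroup H] [InnerProductSpace ℂ H] [CompleteSpace H]
  {M : VonNeumannAlgebra H} {Ω : H}

attribute [local instance] InnerProductSpace.complexToReal

/-- The image of a bounded closed convex set under a bounded map is closed. -/
theorem exists_of_mem_closure_image {C : Set H} (hc : Convex ℝ C) (hcl : IsClosed C) {R : ℝ}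
    (hb : ∀ v ∈ C, ‖v‖ ≤ R) (L : H →L[ℝ] H) {u : H} (hu : u ∈ closure (L '' C)) :
    ∃ v ∈ C, L v = u := by
  have hexists : ∀ n : ℕ, ∃ v, (v ∈ C ∧ ‖L v - u‖ ≤ 1 / ((n : ℝ) + 1)) ∧
      ∀ w, (w ∈ C ∧ ‖L w - u‖ ≤ 1 / ((n : ℝ) + 1)) → ‖v‖ ≤ ‖w‖ := by
    intro n
    set S := C ∩ L ⁻¹' Metric.closedBall u (1 / ((n : ℝ) + 1)) with hS
    have hne : S.Nonempty := by
      obtain ⟨_, ⟨v, hv, rfl⟩, hd⟩ := Metric.mem_closure_iff.1 hu (1 / ((n : ℝ) + 1))
        (by positivity)
      exact ⟨v, hv, by rw [Set.mem_preimage, Metric.mem_closedBall, dist_comm]; exact hd.le⟩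
    have hcx : Convex ℝ S :=
      hc.inter ((convex_closedBall u _).linear_preimage L.toLinearMap)
    have hcS : IsClosed S := hcl.inter (Metric.isClosed_closedBall.preimage L.continuous)
    obtain ⟨v, hv, hmin⟩ := exists_norm_eq_iInf_of_complete_convex hne hcS.isComplete hcx (0 : H)
    refine ⟨v, ⟨hv.1, by simpa [dist_eq_norm] using hv.2⟩, fun w hw => ?_⟩
    have hwS : w ∈ S := ⟨hw.1, by simpa [dist_eq_norm] using hw.2⟩
    simp only [zero_sub, norm_neg] at hmin
    rw [hmin]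
    exact ciInf_le (f := fun x : S => ‖(x : H)‖)
      ⟨0, Set.forall_mem_range.2 fun _ => norm_nonneg _⟩ ⟨w, hwS⟩
  choose v hv hmin using hexists
  have hmem : ∀ {n m : ℕ}, n ≤ m → v m ∈ C ∧ ‖L (v m) - u‖ ≤ 1 / ((n : ℝ) + 1) := fun {n m} h =>
    ⟨(hv m).1, (hv m).2.trans (Nat.one_div_le_one_div h)⟩
  have hmono : Monotone fun n => ‖v n‖ := fun n m h => hmin n _ (hmem h)
  have hbd : BddAbove (Set.range fun n => ‖v n‖) :=
    ⟨R, Set.forall_mem_range.2 fun n => hb _ (hv n).1⟩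
  set d := ⨆ n, ‖v n‖ with hd
  have hlim : Tendsto (fun n => ‖v n‖) atTop (𝓝 d) := tendsto_atTop_ciSup hmono hbd
  have hsq : ∀ n m : ℕ, n ≤ m → ‖v n - v m‖ ^ 2 ≤ 2 * (d ^ 2 - ‖v n‖ ^ 2) := by
    intro n m h
    have hmid : ‖v n‖ ≤ ‖(1 / 2 : ℝ) • (v n + v m)‖ := by
      apply hmin n
      refine ⟨?_, ?_⟩
      · rw [smul_add]
        exact hc (hv n).1 (hv m).1 (by norm_num) (by norm_num) (by norm_num)
      · have h1 := (hv n).2
        have h2 := (hmem h).2
        rw [map_smul, map_add, show (1 / 2 : ℝ) • (L (v n) + L (v m)) - u =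
          (1 / 2 : ℝ) • ((L (v n) - u) + (L (v m) - u)) by module, norm_smul]
        refine (mul_le_mul_of_nonneg_left (norm_add_le _ _) (norm_nonneg _)).trans ?_
        norm_num at h1 h2 ⊢
        linarith
    rw [norm_smul, Real.norm_of_nonneg (by norm_num)] at hmid
    have hpar := parallelogram_law_with_norm ℝ (v n) (v m)
    have hm : ‖v m‖ ≤ d := le_ciSup hbd m
    have hm2 : ‖v m‖ ^ 2 ≤ d ^ 2 := pow_le_pow_left₀ (norm_nonneg _) hm 2
    have h4 : (2 * ‖v n‖) ^ 2 ≤ ‖v n + v m‖ ^ 2 :=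
      pow_le_pow_left₀ (by positivity) (by linarith) 2
    nlinarith
  have hcauchy : CauchySeq v := by
    refine Metric.cauchySeq_iff'.2 fun e he => ?_
    have h1 : Tendsto (fun n => 2 * (d ^ 2 - ‖v n‖ ^ 2)) atTop (𝓝 0) := by
      have := ((hlim.pow 2).const_sub (d ^ 2)).const_mul 2
      rwa [sub_self, mul_zero] at this
    obtain ⟨N, hN⟩ := (h1.eventually (Iio_mem_nhds (pow_pos he 2))).exists
    refine ⟨N, fun m hm => ?_⟩
    rw [dist_eq_norm, norm_sub_rev]
    exact lt_of_pow_lt_pow_left₀ 2 he.le ((hsq N m hm).trans_lt hN)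
  obtain ⟨w, hw⟩ := cauchySeq_tendsto_of_complete hcauchy
  refine ⟨w, hcl.mem_of_tendsto hw (Eventually.of_forall fun n => (hv n).1), ?_⟩
  refine tendsto_nhds_unique ((L.continuous.tendsto w).comp hw)
    (tendsto_iff_norm_sub_tendsto_zero.2 ?_)
  exact squeeze_zero (fun n => norm_nonneg _) (fun n => (hv n).2)
    tendsto_one_div_add_atTop_nhds_zero_nat

/-- The selfadjoint part of the ball of radius `c`. -/
def ball (M : VonNeumannAlgebra H) (c : ℝ) : Set (H →L[ℂ] H) :=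
  {x | x ∈ M ∧ star x = x ∧ ‖x‖ ≤ c}

theorem convex_ball (c : ℝ) : Convex ℝ (ball M c) := by
  intro x hx y hy s t hs ht hst
  refine ⟨add_mem (rsmul_mem_alg M s hx.1) (rsmul_mem_alg M t hy.1),
    by simp [star_add, star_smul, hx.2.1, hy.2.1], (norm_add_le _ _).trans ?_⟩
  rw [norm_smul, norm_smul, Real.norm_of_nonneg hs, Real.norm_of_nonneg ht]
  refine (add_le_add (mul_le_mul_of_nonneg_left hx.2.2 hs)
    (mul_le_mul_of_nonneg_left hy.2.2 ht)).trans_eq ?_
  rw [← add_mul, hst, one_mul]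

/-- A limit of `x_n Ω` over a bounded selfadjoint part is again of this form. -/
theorem exists_of_mem_closure_ball (hcs : IsCS M Ω) {c : ℝ} {v : H}
    (hv : v ∈ closure ((fun x : H →L[ℂ] H => x Ω) '' ball M c)) :
    ∃ x ∈ M, star x = x ∧ x Ω = v := by
  obtain ⟨s, hs, hlim⟩ := mem_closure_iff_seq_limit.1 hv
  choose x hx hxs using hs
  obtain rfl : (fun n => x n Ω) = s := funext hxs
  have hcs' := isCS_commutant hcs
  have hca : ∀ w : H, CauchySeq fun n => x n w := by
    intro w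
    refine Metric.cauchySeq_iff'.2 fun e he => ?_
    have hc0 : 0 ≤ c := (norm_nonneg _).trans (hx 0).2.2
    obtain ⟨a, ha, haw⟩ := hcs'.cyclic w (e / (4 * (c + 1))) (by positivity)
    obtain ⟨N, hN⟩ := Metric.cauchySeq_iff'.1 hlim.cauchySeq (e / (4 * (‖a‖ + 1))) (by positivity)
    refine ⟨N, fun m hm => ?_⟩
    rw [dist_eq_norm]
    have h1 : ‖x m Ω - x N Ω‖ ≤ e / (4 * (‖a‖ + 1)) := by rw [← dist_eq_norm]; exact (hN m hm).le
    have h2 : ‖(x m - x N) (a Ω)‖ ≤ e / 4 := by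
      rw [sub_apply, commute_apply (hx m).1 ha, commute_apply (hx N).1 ha, ← map_sub]
      refine (a.le_opNorm _).trans ((mul_le_mul_of_nonneg_left h1 (norm_nonneg _)).trans ?_)
      rw [mul_div_assoc', div_le_iff₀ (by positivity)]
      nlinarith [norm_nonneg a]
    have h3 : ‖(x m - x N) (w - a Ω)‖ ≤ e / 2 := by
      refine ((x m - x N).le_opNorm _).trans ((mul_le_mul (norm_sub_le _ _)
        ((norm_sub_rev _ _).trans_le haw) (norm_nonneg _)
        (add_nonneg (norm_nonneg _) (norm_nonneg _))).trans ?_)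
      refine (mul_le_mul_of_nonneg_right (add_le_add (hx m).2.2 (hx N).2.2) (by positivity)).trans ?_
      rw [mul_div_assoc', div_le_iff₀ (by positivity)]
      nlinarith
    have h4 : x m w - x N w = (x m - x N) (a Ω) + (x m - x N) (w - a Ω) := by
      rw [← map_add, add_sub_cancel, sub_apply]
    rw [h4]
    exact lt_of_le_of_lt (norm_add_le _ _) (by linarith)
  choose g hg using fun w => cauchySeq_tendsto_of_complete (hca w)
  let X : H →L[ℂ] H := LinearMap.mkContinuous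
    (linearMapOfTendsto g (fun n => (x n).toLinearMap) (tendsto_pi_nhds.2 hg)) c fun w =>
      le_of_tendsto (hg w).norm (Eventually.of_forall fun n =>
        ContinuousLinearMap.le_of_opNorm_le _ (hx n).2.2 w)
  refine ⟨X, mem_of_commute M fun b hb => ?_, ?_, tendsto_nhds_unique (hg Ω) hlim⟩
  · ext w
    refine tendsto_nhds_unique ((b.continuous.tendsto _).comp (hg w)) ?_
    exact (hg (b w)).congr fun n => commute_apply (hx n).1 hb w
  · rw [ContinuousLinearMap.star_eq_adjoint, eq_comm, ContinuousLinearMap.eq_adjoint_iff]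
    intro v w
    refine tendsto_nhds_unique ((hg v).inner (𝕜 := ℂ) (tendsto_const_nhds (x := w))) ?_
    refine (((tendsto_const_nhds (x := v)).inner (𝕜 := ℂ) (hg w))).congr fun n => ?_
    rw [inner_sa (hx n).2.1]

/-- The ramp near zero. -/
noncomputable def ramp (e s : ℝ) : ℝ := min 1 (max 0 (s / e))

theorem ramp_bounds (e s : ℝ) : 0 ≤ ramp e s ∧ ramp e s ≤ 1 :=
  ⟨le_min zero_le_one (le_max_left _ _), min_le_left _ _⟩

theorem max_le_ramp {e : ℝ} (he : 0 < e) (s : ℝ) : max s 0 - e ≤ s * ramp e s := by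
  have h := ramp_bounds e s
  rcases le_or_gt s 0 with h0 | h0
  · have : ramp e s = 0 := by
      rw [ramp, max_eq_left (div_nonpos_of_nonpos_of_nonneg h0 he.le), min_eq_right zero_le_one]
    rw [this, max_eq_right h0]; linarith
  · rw [max_eq_left h0.le]
    rcases le_or_gt e s with h1 | h1
    · have : ramp e s = 1 := min_eq_left (le_max_of_le_right (by rwa [one_le_div he]))
      rw [this]; linarith
    · have := mul_nonneg h0.le h.1
      linarith

theorem cfc_mem_alg (M : VonNeumannAlgebra H) {m : H →L[ℂ] H} (hm : m ∈ M) (f : ℝ → ℝ) :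
    cfc f m ∈ M :=
  mem_of_commute M fun b hb =>
    ((show Commute m b from VonNeumannAlgebra.mem_commutant_iff.1 hb m hm).cfc_real f).eq.symm

omit [CompleteSpace H] in
theorem re_inner_nonneg {T : H →L[ℂ] H} (hT : 0 ≤ T) (v : H) : 0 ≤ (⟪v, T v⟫_ℂ).re := by
  have h := ((ContinuousLinearMap.nonneg_iff_isPositive T).1 hT).re_inner_nonneg_right v
  simpa using h

/-- The functional of `a` is below that of an almost maximal selfadjoint `x`. -/
theorem exists_ball_ge (hcs : IsCS M Ω) {a : H →L[ℂ] H} (ha : a ∈ M.commutant) (ha1 : a ≤ 1)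
    {l : ℂ} (hl : 0 < l.re) {m : H →L[ℂ] H} (hm : m ∈ M) (hms : star m = m) {e : ℝ} (he : 0 < e) :
    ∃ x ∈ ball M (1 / (2 * l.re)), (0 : ℝ) ≤ 1 / (2 * l.re) →
      0 ≤ a → (⟪m Ω, a Ω⟫_ℂ).re - e ≤ 2 * (l * ⟪m Ω, x Ω⟫_ℂ).re := by
  have hsa : IsSelfAdjoint m := hms
  set c : ℝ := 1 / (2 * l.re) with hc
  have hc0 : 0 < c := by positivity
  have hrc : Continuous (ramp e) := by unfold ramp; fun_prop
  set r := cfc (ramp e) m with hr
  have hrM : r ∈ M := cfc_mem_alg M hm _
  have hrs : star r = r := (cfc_predicate (ramp e) m : IsSelfAdjoint _).star_eq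
  refine ⟨c • r, ⟨rsmul_mem_alg M c hrM, by rw [star_smul, hrs, star_trivial], ?_⟩, fun _ ha0 => ?_⟩
  · rw [norm_smul, Real.norm_of_nonneg hc0.le]
    refine mul_le_of_le_one_right hc0.le (norm_cfc_le zero_le_one fun s _ => ?_)
    rw [Real.norm_of_nonneg (ramp_bounds e s).1]
    exact (ramp_bounds e s).2
  set q := cfc (fun s : ℝ => √(max s 0)) m with hq
  have hqM : q ∈ M := cfc_mem_alg M hm _
  have hqs : star q = q := (cfc_predicate _ m : IsSelfAdjoint _).star_eq
  have hneg : 0 ≤ cfc (fun s : ℝ => max s 0 - s) m :=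
    cfc_nonneg fun s _ => sub_nonneg.2 (le_max_left s 0)
  set nn := cfc (fun s : ℝ => max s 0 - s) m
  have hsplit : m = q * q - nn := by
    rw [hq, ← cfc_mul _ _ m, ← cfc_sub _ _ m]
    conv_lhs => rw [← cfc_id' ℝ m]
    refine cfc_congr fun s _ => ?_
    rw [Real.mul_self_sqrt (le_max_right _ _)]; ring
  have hprod : cfc (fun s : ℝ => s * ramp e s) m = m * r := by
    rw [cfc_mul _ _ m (by fun_prop) hrc.continuousOn, cfc_id' ℝ m]
  have hge : (⟪q Ω, q Ω⟫_ℂ).re - e ≤ (⟪Ω, m (r Ω)⟫_ℂ).re := by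
    have h0 : 0 ≤ cfc (fun s : ℝ => s * ramp e s - (max s 0 - e)) m :=
      cfc_nonneg fun s _ => sub_nonneg.2 (max_le_ramp he s)
    have h1 : cfc (fun s : ℝ => s * ramp e s - (max s 0 - e)) m = m * r - (q * q - e • 1) := by
      rw [cfc_sub _ _ m, hprod, cfc_sub _ _ m, cfc_const e m, hq, ← cfc_mul _ _ m,
        Algebra.algebraMap_eq_smul_one]
      congr 2
      exact cfc_congr fun s _ => (Real.mul_self_sqrt (le_max_right _ _)).symm
    have h2 := re_inner_nonneg h0 Ω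
    rw [h1, sub_apply, sub_apply, smul_apply, one_apply_eq_self, mul_apply_eq_comp,
      mul_apply_eq_comp, inner_sub_right, inner_sub_right, ← Complex.coe_smul, inner_smul_right,
      inner_self_eq_norm_sq_to_K, hcs.norm, Complex.sub_re, Complex.sub_re,
      ← inner_sa hqs Ω (q Ω)] at h2
    simp at h2 ⊢
    linarith
  have hup : (⟪m Ω, a Ω⟫_ℂ).re ≤ (⟪q Ω, q Ω⟫_ℂ).re := by
    have hnn : nn ∈ M := cfc_mem_alg M hm _
    obtain ⟨t, htM, hts, htt⟩ : ∃ t ∈ M, star t = t ∧ t * t = nn := by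
      refine ⟨cfc (fun s : ℝ => √(max s 0 - s)) m, cfc_mem_alg M hm _,
        (cfc_predicate _ m : IsSelfAdjoint _).star_eq, ?_⟩
      rw [← cfc_mul _ _ m]
      exact cfc_congr fun s _ => Real.mul_self_sqrt (sub_nonneg.2 (le_max_left s 0))
    have hb : ∀ {g : H →L[ℂ] H}, g ∈ M → star g = g →
        (⟪(g * g) Ω, a Ω⟫_ℂ) = ⟪g Ω, a (g Ω)⟫_ℂ := fun {g} hg hgs => by
      rw [mul_apply_eq_comp, inner_sa hgs, commute_apply hg ha]
    rw [hsplit, ← htt, sub_apply, inner_sub_left, Complex.sub_re, hb hqM hqs, hb htM hts]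
    have h1 := re_inner_nonneg (sub_nonneg.2 ha1) (q Ω)
    rw [sub_apply, one_apply_eq_self, inner_sub_right, Complex.sub_re] at h1
    linarith [re_inner_nonneg ha0 (t Ω)]
  have hreal : (⟪Ω, m (r Ω)⟫_ℂ).im = 0 := by
    have hmr : star (m * r) = m * r := by
      rw [star_mul, hrs, hms]
      exact (((Commute.refl m).cfc_real (ramp e)).eq)
    have h := inner_conj_symm (𝕜 := ℂ) Ω ((m * r) Ω)
    rw [inner_sa hmr, mul_apply_eq_comp] at h
    exact Complex.conj_eq_iff_im.1 h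
  rw [smul_apply, ← Complex.coe_smul, inner_smul_right, inner_sa hms Ω (r Ω), Complex.mul_re,
    Complex.re_ofReal_mul, Complex.im_ofReal_mul, hreal, mul_zero, mul_zero, sub_zero]
  have : 2 * (l.re * (c * (⟪Ω, m (r Ω)⟫_ℂ).re)) = (⟪Ω, m (r Ω)⟫_ℂ).re := by
    rw [hc]; field_simp
  rw [this]
  linarith

/-- Sakai's linear Radon-Nikodym theorem. -/
theorem sakai (hcs : IsCS M Ω) {a : H →L[ℂ] H} (ha : a ∈ M.commutant) (ha0 : 0 ≤ a) (ha1 : a ≤ 1)
    {l : ℂ} (hl : 0 < l.re) :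
    ∃ x ∈ M, star x = x ∧ ∀ m ∈ M,
      ⟪m Ω, a Ω⟫_ℂ = l * ⟪m Ω, x Ω⟫_ℂ + conj l * ⟪x Ω, star m Ω⟫_ℂ := by
  set c : ℝ := 1 / (2 * l.re) with hc
  have hc0 : 0 < c := by positivity
  set C := closure ((fun x : H →L[ℂ] H => x Ω) '' ball M c) with hC
  have hCb : ∀ v ∈ C, ‖v‖ ≤ c := fun v hv => by
    refine closure_minimal (t := {v : H | ‖v‖ ≤ c}) ?_
      (isClosed_le continuous_norm continuous_const) hv
    rintro _ ⟨x, hx, rfl⟩
    exact (x.le_opNorm _).trans (by rw [hcs.norm, mul_one]; exact hx.2.2)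
  have hCc : Convex ℝ C :=
    ((convex_ball (M := M) c).linear_image
      { toFun := fun x : H →L[ℂ] H => x Ω
        map_add' := fun _ _ => rfl
        map_smul' := fun _ _ => rfl }).closure
  let L : H →L[ℝ] H := projK M Ω ∘L
    ((2 * l) • (1 : H →L[ℂ] H)).restrictScalars ℝ
  have hL : ∀ {m : H →L[ℂ] H}, m ∈ M → star m = m → ∀ v,
      (⟪m Ω, L v⟫_ℂ).re = 2 * (l * ⟪m Ω, v⟫_ℂ).re := by
    intro m hm hms v
    show (⟪m Ω, projK M Ω ((2 * l) • v)⟫_ℂ).re = _
    rw [re_inner_projK (mem_ksp hm hms), inner_smul_right, mul_assoc, show (2 : ℂ) =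
      ((2 : ℝ) : ℂ) by norm_num, Complex.re_ofReal_mul]
  set u := projK M Ω (a Ω) with hu
  have hu_cl : u ∈ closure (L '' C) := by
    have hne : (L '' C).Nonempty :=
      ⟨L 0, 0, subset_closure ⟨0, ⟨zero_mem M, star_zero _, by simpa using hc0.le⟩, rfl⟩, rfl⟩
    have hcx : Convex ℝ (closure (L '' C)) := (hCc.linear_image L.toLinearMap).closure
    obtain ⟨v₀, hv₀, hmin⟩ := exists_norm_eq_iInf_of_complete_convex hne.closure
      isClosed_closure.isComplete hcx u
    have hsep := (norm_eq_iInf_iff_real_inner_le_zero hcx hv₀).1 hmin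
    by_contra hnot
    have hk0 : u - v₀ ≠ 0 := fun h => hnot (by rw [sub_eq_zero.1 h]; exact hv₀)
    have hv₀K : v₀ ∈ ksp M Ω := closure_minimal
      (by rintro _ ⟨v, -, rfl⟩; exact projK_mem _) (Submodule.isClosed_topologicalClosure _) hv₀
    have hk : u - v₀ ∈ ksp M Ω := sub_mem (projK_mem _) hv₀K
    set g := ‖u - v₀‖ ^ 2 with hg
    have hg0 : 0 < g := by positivity
    set B := ‖u‖ + ‖L‖ * c + 1 with hB
    have hB0 : 0 < B := by positivity
    obtain ⟨m, hm, hms, hmk⟩ := exists_near_ksp hk (show 0 < g / (2 * B) by positivity)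
    obtain ⟨x, hx, hxge⟩ :=
      exists_ball_ge hcs ha ha1 hl hm hms (show 0 < g / 3 by positivity)
    have hxC : x Ω ∈ C := subset_closure ⟨x, hx, rfl⟩
    have h1 := hxge hc0.le ha0
    rw [← hL hm hms (x Ω), ← re_inner_projK (mem_ksp hm hms) (a Ω), ← hu] at h1
    have h2 := hsep (L (x Ω)) (subset_closure ⟨_, hxC, rfl⟩)
    have h3 : ⟪u - v₀, u - L (x Ω)⟫_ℝ ≥ g := by
      rw [show u - L (x Ω) = (u - v₀) - (L (x Ω) - v₀) by abel, inner_sub_right,
        real_inner_self_eq_norm_sq]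
      linarith
    have h4 : ⟪m Ω - (u - v₀), u - L (x Ω)⟫_ℝ ≥ -(g / 2) := by
      have hb := abs_real_inner_le_norm (m Ω - (u - v₀)) (u - L (x Ω))
      have hnorm : ‖u - L (x Ω)‖ ≤ B := by
        refine (norm_sub_le _ _).trans ?_
        have := L.le_opNorm (x Ω)
        have := mul_le_mul_of_nonneg_left (hCb _ hxC) (norm_nonneg L)
        linarith
      have : g / (2 * B) * B = g / 2 := by field_simp
      have := mul_le_mul hmk hnorm (norm_nonneg _) (by positivity)
      linarith [(abs_le.1 hb).1]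
    rw [inner_sub_left] at h4
    have h5 : ⟪m Ω, u - L (x Ω)⟫_ℝ ≤ g / 3 := by
      rw [rinner_eq, inner_sub_right, Complex.sub_re]
      linarith
    linarith
  obtain ⟨v, hv, hLv⟩ := exists_of_mem_closure_image hCc isClosed_closure hCb L hu_cl
  obtain ⟨x, hx, hxs, rfl⟩ := exists_of_mem_closure_ball hcs hv
  refine ⟨x, hx, hxs, ?_⟩
  have hsa : ∀ m ∈ M, star m = m →
      ⟪m Ω, a Ω⟫_ℂ = l * ⟪m Ω, x Ω⟫_ℂ + conj l * ⟪x Ω, star m Ω⟫_ℂ := by
    intro m hm hms
    have h := hL hm hms (x Ω)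
    rw [hLv, hu, re_inner_projK (mem_ksp hm hms)] at h
    have him : (⟪m Ω, a Ω⟫_ℂ).im = 0 := by
      refine Complex.conj_eq_iff_im.1 ?_
      rw [inner_conj_symm, inner_sa (ha0.isSelfAdjoint.star_eq), ← commute_apply hm ha,
        ← inner_sa hms]
    have e : conj l * ⟪x Ω, star m Ω⟫_ℂ = conj (l * ⟪m Ω, x Ω⟫_ℂ) := by
      rw [map_mul, inner_conj_symm, hms]
    rw [e, Complex.add_conj]
    exact Complex.ext (by rw [h, Complex.ofReal_re]) (by rw [him, Complex.ofReal_im])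
  intro m hm
  set p := (1 / 2 : ℂ) • (m + star m) with hp
  set q := (Complex.I / 2) • (star m - m) with hq
  have hps : star p = p := by simp [hp, star_smul, add_comm]
  have hqs : star q = q := by
    simp [hq, star_smul, neg_div, ← smul_neg, neg_sub]
  have e1 : m = p + Complex.I • q := by
    rw [hp, hq, smul_smul, ← mul_div_assoc, Complex.I_mul_I]; module
  have e2 : star m = p - Complex.I • q := by
    rw [hp, hq, smul_smul, ← mul_div_assoc, Complex.I_mul_I]; module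
  have hpM : p ∈ M := smul_mem_alg M _ (add_mem hm (star_mem hm))
  have hqM : q ∈ M := smul_mem_alg M _ (sub_mem (star_mem hm) hm)
  have hp' := hsa p hpM hps
  have hq' := hsa q hqM hqs
  rw [hps] at hp'
  rw [hqs] at hq'
  clear_value p q
  rw [e2, e1, add_apply, sub_apply, smul_apply, inner_add_left, inner_add_left, inner_sub_right,
    inner_smul_left, inner_smul_left, inner_smul_right, hp', hq', Complex.conj_I]
  ring

end Vale.Agent.P132.Tomita
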