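import Vale.Agent.P132.Tomita.Cfun
import Vale.Agent.P132.Fixed.Gauss

/-!
# Shifting a Gaussian window by half the imaginary unit
-/

namespace Vale.Agent.P132.Tomita

open scoped InnerProductSpace Topology ComplexOrder ComplexConjugate
open Filter MeasureTheory

universe u

theorem continuous_hfun_pair : Continuous fun p : ℝ × ℝ => hfun p.1 p.2 := by
  rw [continuous_iff_continuousAt]
  rintro ⟨t, r⟩
  by_cases h : r * (2 - r) = 0
  · have h0 : hfun t r = 0 := norm_eq_zero.1 (by rw [norm_hfun, h, abs_zero])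
    rw [ContinuousAt, h0, tendsto_zero_iff_norm_tendsto_zero]
    simp only [norm_hfun]
    have hc : Continuous fun p : ℝ × ℝ => |p.2 * (2 - p.2)| := by fun_prop
    simpa [h] using hc.tendsto (t, r)
  · have h1 : r ≠ 0 := left_ne_zero_of_mul h
    have h2 : (2 - r) / r ≠ 0 := div_ne_zero (right_ne_zero_of_mul h) h1
    unfold hfun lfun
    fun_prop (disch := assumption)

/-- The Fourier transform of a Gaussian window at a shifted time. -/
theorem gauss_ft_shift {T : ℝ} (hT : 0 < T) (E l : ℝ) :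
    ∫ t : ℝ, gauss T E ((t : ℂ) + Complex.I / 2) *
        Complex.exp (Complex.I * (t : ℂ) * (l : ℂ)) =
      Complex.exp ((l : ℂ) / 2) *
        ∫ t : ℝ, gauss T E (t : ℂ) * Complex.exp (Complex.I * (t : ℂ) * (l : ℂ)) := by
  have hT' : (T : ℂ) ≠ 0 := by exact_mod_cast hT.ne'
  set b : ℂ := -(1 / (2 * (T : ℂ) ^ 2)) with hb
  have hbre : b.re < 0 := by
    have e : b = ((-(1 / (2 * T ^ 2)) : ℝ) : ℂ) := by rw [hb]; push_cast; ring
    rw [e, Complex.ofReal_re]
    have : 0 < 1 / (2 * T ^ 2) := by positivity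
    linarith
  have h1 : (fun t : ℝ => gauss T E ((t : ℂ) + Complex.I / 2) *
      Complex.exp (Complex.I * (t : ℂ) * (l : ℂ))) = fun t : ℝ => Complex.exp (b * (t : ℂ) ^ 2 +
        (Complex.I * ((l : ℂ) - (E : ℂ)) - Complex.I / (2 * (T : ℂ) ^ 2)) * (t : ℂ) +
        ((E : ℂ) / 2 + 1 / (8 * (T : ℂ) ^ 2))) := by
    funext t
    rw [gauss, ← Complex.exp_add, ← Complex.exp_add, hb]
    congr 1
    field_simp
    linear_combination (8 : ℂ) * (-(4 : ℂ) * (E : ℂ) * (T : ℂ) ^ 2 - 1) * Complex.I_sq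
  have h2 : (fun t : ℝ => gauss T E (t : ℂ) * Complex.exp (Complex.I * (t : ℂ) * (l : ℂ))) =
      fun t : ℝ => Complex.exp (b * (t : ℂ) ^ 2 +
        (Complex.I * ((l : ℂ) - (E : ℂ))) * (t : ℂ) + 0) := by
    funext t
    rw [gauss, ← Complex.exp_add, ← Complex.exp_add, hb]
    congr 1
    field_simp
    ring
  rw [h1, h2, integral_cexp_quadratic hbre, integral_cexp_quadratic hbre, mul_left_comm,
    ← Complex.exp_add]
  congr 2
  rw [hb]
  field_simp
  linear_combination (8 : ℂ) * (-4 * (T : ℂ) ^ 2 * ((l : ℂ) - (E : ℂ)) + 1) * Complex.I_sq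

variable {H : Type u} [NormedAddCommGroup H] [InnerProductSpace ℂ H] [CompleteSpace H]
  {R : H →L[ℂ] H}

/-- Moving an integral into the functional calculus. -/
theorem cf_integral (hR : IsSelfAdjoint R) (hs : spectrum ℝ R ⊆ Set.Icc 0 2) {c : ℝ → ℂ}
    (hc : Continuous c) (hci : Integrable c) {ψ : ℝ → ℂ} (hψ : Continuous ψ) :
    Integrable (fun t : ℝ => cf R (fun r => c t * (ψ r * hfun t r))) ∧
    cf R (fun r => ∫ t : ℝ, c t * (ψ r * hfun t r)) =
      ∫ t : ℝ, cf R (fun r => c t * (ψ r * hfun t r)) := by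
  obtain ⟨C, hC⟩ := (isCompact_Icc (a := (0 : ℝ)) (b := 2)).exists_bound_of_continuousOn
    hψ.continuousOn
  have hbound : ∀ t : ℝ, ∀ z ∈ spectrum ℂ R, ‖c t * (ψ z.re * hfun t z.re)‖ ≤ ‖c t‖ * C := by
    intro t z hz
    have hr := hs (re_mem_spectrum hR hz)
    rw [norm_mul, norm_mul, norm_hfun]
    refine mul_le_mul_of_nonneg_left ((mul_le_of_le_one_right (norm_nonneg _) ?_).trans (hC _ hr))
      (norm_nonneg _)
    rw [abs_of_nonneg (mul_nonneg hr.1 (by linarith [hr.2]))]
    nlinarith [sq_nonneg (z.re - 1)]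
  have hcont : ContinuousOn
      (Function.uncurry fun (t : ℝ) (z : ℂ) => c t * (ψ z.re * hfun t z.re))
      (Set.univ ×ˢ spectrum ℂ R) :=
    ((hc.comp continuous_fst).mul ((hψ.comp (Complex.continuous_re.comp continuous_snd)).mul
      (continuous_hfun_pair.comp (continuous_fst.prodMk
        (Complex.continuous_re.comp continuous_snd))))).continuousOn
  have hn : IsStarNormal R := hR.isStarNormal
  exact ⟨integrable_cfc _ (fun t => ‖c t‖ * C) R hcont (Eventually.of_forall hbound)
      (hci.norm.mul_const C).hasFiniteIntegral hn,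
    cfc_integral _ (fun t => ‖c t‖ * C) R hcont (Eventually.of_forall hbound)
      (hci.norm.mul_const C).hasFiniteIntegral hn⟩

/-- StmtShift. -/
theorem stmtShift.{v} : StmtShift.{v} := by
  intro H _ _ _ R U hP T E hT ξ
  have hR := hP.sa
  have hs := hP.spec
  have hUn : ∀ t v, ‖U t v‖ = ‖v‖ := by
    intro t v
    have h : star (U t) * U t = 1 := by rw [hP.U_star, ← hP.U_add, neg_add_cancel, hP.U_zero]
    rw [norm_eq_sqrt_re_inner (𝕜 := ℂ), norm_eq_sqrt_re_inner (𝕜 := ℂ) v,
      ← ContinuousLinearMap.adjoint_inner_right, ← ContinuousLinearMap.star_eq_adjoint,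
      ← mul_apply_eq_comp, h, one_apply_eq_self]
  set cL : ℝ → ℂ := fun t => gauss T E (t : ℂ) with hcL
  set cR : ℝ → ℂ := fun t => gauss T E ((t : ℂ) + Complex.I / 2) with hcR
  have hLc : Continuous cL := by simp only [hcL, gauss]; fun_prop
  have hRc : Continuous cR := by simp only [hcR, gauss]; fun_prop
  have hLi : Integrable cL := Fixed.integrable_gauss hT E
  have hRi : Integrable cR := by
    simp only [hcR, Fixed.gauss_shift]
    exact (Fixed.integrable_gauss hT _).const_mul _
  have hint : ∀ {c : ℝ → ℂ}, Integrable c → ∀ v, Integrable fun t : ℝ => c t • U t v := by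
    intro c hc v
    refine (hc.norm.mul_const ‖v‖).mono' (hc.1.smul (hP.U_cont v).aestronglyMeasurable) ?_
    filter_upwards with t
    rw [norm_smul, hUn]
  set A : H →L[ℂ] H := (2 : ℂ) • 1 - R with hA
  set B : H →L[ℂ] H := cf R tfun with hB
  have hAcf : A = cf R fun r => (2 : ℂ) - (r : ℂ) := by
    have e := cf_add (R := R) (fun r : ℝ => (2 : ℂ) - (r : ℂ)) (fun r : ℝ => (r : ℂ))
      (by fun_prop) (by fun_prop)
    simp only [sub_add_cancel] at e
    have e2 : cf R (fun _ : ℝ => (2 : ℂ)) = (2 : ℂ) • (1 : H →L[ℂ] H) := by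
      rw [cf, cfc_const (2 : ℂ) R hR.isStarNormal, Algebra.algebraMap_eq_smul_one]
    rw [e2, cf_id hR] at e
    rw [hA, e, add_sub_cancel_right]
  -- both sides on the range of `R (2 - R)`
  have key : ∀ {c ψ : ℝ → ℂ}, Continuous c → Integrable c → Continuous ψ → ∀ η : H,
      (∫ t : ℝ, c t • U t (cf R ψ (cf R wfun η))) =
        cf R (fun r => ∫ t : ℝ, c t * (ψ r * hfun t r)) η := by
    intro c ψ hc hci hψ η
    obtain ⟨hi, he⟩ := cf_integral hR hs hc hci hψ
    rw [he, ContinuousLinearMap.integral_apply hi]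
    refine integral_congr_ae (Eventually.of_forall fun t => ?_)
    dsimp only
    rw [cf_smul (c t) (fun r => ψ r * hfun t r) (hψ.mul (continuous_hfun t)),
      cf_mul ψ (hfun t) hψ (continuous_hfun t), smul_apply]
    congr 1
    rw [cf_comm ψ (hfun t), ← hP.U_spec t, ← mul_apply_eq_comp (cf R ψ), cf_comm ψ wfun]
    rfl
  have hscal : ∀ r ∈ Set.Icc (0 : ℝ) 2,
      (∫ t : ℝ, cL t * (((2 : ℂ) - (r : ℂ)) * hfun t r)) =
        ∫ t : ℝ, cR t * (tfun r * hfun t r) := by
    intro r hr
    have e : ∀ c : ℝ → ℂ, ∀ z : ℂ, (∫ t : ℝ, c t * (z * hfun t r)) =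
        z * ((r * (2 - r) : ℝ) : ℂ) *
          ∫ t : ℝ, c t * Complex.exp (Complex.I * (t : ℂ) * (lfun r : ℂ)) := by
      intro c z
      rw [← integral_const_mul]
      refine integral_congr_ae (Eventually.of_forall fun t => ?_)
      simp only [hfun]; ring
    rw [e, e, gauss_ft_shift hT]
    by_cases h : r * (2 - r) = 0
    · simp [h]
    have hr0 : 0 < r := lt_of_le_of_ne hr.1 (Ne.symm (left_ne_zero_of_mul h))
    have hr2 : 0 < 2 - r := lt_of_le_of_ne (by linarith [hr.2]) (Ne.symm (right_ne_zero_of_mul h))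
    have hmain : tfun r * Complex.exp ((lfun r : ℂ) / 2) = (2 : ℂ) - (r : ℂ) := by
      have h1 : Complex.exp ((lfun r : ℂ) / 2) = ((√((2 - r) / r) : ℝ) : ℂ) := by
        rw [show (lfun r : ℂ) / 2 = ((lfun r / 2 : ℝ) : ℂ) by push_cast; ring, ← Complex.ofReal_exp,
          lfun, Real.exp_half, Real.exp_log (div_pos hr2 hr0)]
      rw [h1, tfun, ← Complex.ofReal_mul, ← Real.sqrt_mul (mul_nonneg hr.1 hr2.le),
        show r * (2 - r) * ((2 - r) / r) = (2 - r) * (2 - r) by field_simp,
        Real.sqrt_mul_self hr2.le]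
      push_cast; rfl
    rw [← hmain]; ring
  -- continuity and density
  set FL : H → H := fun v => ∫ t : ℝ, cL t • U t (A v) with hFL
  set FR : H → H := fun v => ∫ t : ℝ, cR t • U t (B v) with hFR
  have hcont : ∀ {c : ℝ → ℂ}, Integrable c → ∀ Z : H →L[ℂ] H,
      Continuous fun v => ∫ t : ℝ, c t • U t (Z v) := by
    intro c hc Z
    apply continuous_of_dominated_of_compact_nhds hc hint hUn Z
  have heq : ∀ η, FL (cf R wfun η) = FR (cf R wfun η) := by
    intro η
    simp only [hFL, hFR, hAcf, hB]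
    rw [key hLc hLi (by fun_prop) η, key hRc hRi continuous_tfun η, cf_congr hR hs hscal]
  have hdense : DenseRange (cf R wfun) := by
    have hinj : ∀ v, cf R wfun v = 0 → v = 0 := by
      intro v hv
      rw [cf_wfun hR, sub_apply, smul_apply, mul_apply_eq_comp, sub_eq_zero] at hv
      exact hP.inj v (hP.inj_two (R v) hv.symm)
    have htop : (LinearMap.range (cf R wfun : H →ₗ[ℂ] H)).topologicalClosure = ⊤ := by
      rw [Submodule.topologicalClosure_eq_top_iff, Submodule.eq_bot_iff]
      intro v hv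
      refine hinj v (inner_self_eq_zero (𝕜 := ℂ).1 ?_)
      have h := Submodule.inner_right_of_mem_orthogonal
        (LinearMap.mem_range_self (cf R wfun : H →ₗ[ℂ] H) (cf R wfun v)) hv
      rw [ContinuousLinearMap.coe_coe] at h
      rwa [← ContinuousLinearMap.adjoint_inner_left, ← ContinuousLinearMap.star_eq_adjoint,
        star_cf_wfun]
    exact (Submodule.dense_iff_topologicalClosure_eq_top.2 htop)
  have h := congrFun (hdense.equalizer (hcont hLi A) (hcont hRi B) (funext heq)) ξ
  simpa [hFL, hFR, hA, hB] using h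
where
  continuous_of_dominated_of_compact_nhds {K : Type v} [NormedAddCommGroup K]
      [InnerProductSpace ℂ K] [CompleteSpace K] {U : ℝ → K →L[ℂ] K} {c : ℝ → ℂ} (hc : Integrable c)
      (hint : ∀ {c : ℝ → ℂ}, Integrable c → ∀ v, Integrable fun t : ℝ => c t • U t v)
      (hUn : ∀ t v, ‖U t v‖ = ‖v‖) (Z : K →L[ℂ] K) :
      Continuous fun v => ∫ t : ℝ, c t • U t (Z v) := by
    let L : K →ₗ[ℂ] K :=
      { toFun := fun v => ∫ t : ℝ, c t • U t (Z v)
        map_add' := fun v w => by
          simp only [map_add, smul_add]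
          exact integral_add (hint hc _) (hint hc _)
        map_smul' := fun z v => by
          simp only [map_smul, smul_comm _ z, RingHom.id_apply]
          exact integral_smul z _ }
    exact (L.mkContinuous ((∫ t : ℝ, ‖c t‖) * ‖Z‖) fun v => by
      refine (norm_integral_le_integral_norm _).trans ?_
      rw [mul_assoc, ← integral_mul_const]
      refine integral_mono (hint hc _).norm (hc.norm.mul_const _) fun t => ?_
      simp only [norm_smul, hUn]
      exact mul_le_mul_of_nonneg_left (Z.le_opNorm v) (norm_nonneg _)).continuous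

end Vale.Agent.P132.Tomita
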