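import Vale.Agent.P132.Tomita.Graph

/-!
# The standard real subspace of a cyclic separating vector
-/

namespace Vale.Agent.P132.Tomita

open scoped InnerProductSpace Topology ComplexOrder
open Filter

universe u

variable {H : Type u} [NormedAddCommGroup H] [InnerProductSpace ℂ H] [CompleteSpace H]
  {M : VonNeumannAlgebra H} {Ω : H}

attribute [local instance] InnerProductSpace.complexToReal

omit [CompleteSpace H] in
theorem rinner_eq (v w : H) : ⟪v, w⟫_ℝ = (⟪v, w⟫_ℂ).re := rfl

theorem smul_mem_alg (M : VonNeumannAlgebra H) (c : ℂ) {x : H →L[ℂ] H} (hx : x ∈ M) : c • x ∈ M :=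
  M.toStarSubalgebra.smul_mem hx c

theorem rsmul_mem_alg (M : VonNeumannAlgebra H) (c : ℝ) {x : H →L[ℂ] H} (hx : x ∈ M) :
    c • x ∈ M := by
  rw [← Complex.coe_smul]
  exact smul_mem_alg M _ hx

theorem inner_star_left (a : H →L[ℂ] H) (v w : H) : ⟪star a v, w⟫_ℂ = ⟪v, a w⟫_ℂ := by
  rw [ContinuousLinearMap.star_eq_adjoint, ContinuousLinearMap.adjoint_inner_left]

theorem inner_sa {a : H →L[ℂ] H} (ha : star a = a) (v w : H) : ⟪a v, w⟫_ℂ = ⟪v, a w⟫_ℂ := by
  conv_lhs => rw [← ha, inner_star_left]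

theorem commute_apply {a b : H →L[ℂ] H} (ha : a ∈ M) (hb : b ∈ M.commutant) (v : H) :
    a (b v) = b (a v) :=
  congrArg (fun f : H →L[ℂ] H => f v) (VonNeumannAlgebra.mem_commutant_iff.1 hb a ha)

/-- The cyclic separating vector is cyclic and separating for the commutant. -/
theorem isCS_commutant (hcs : IsCS M Ω) : IsCS M.commutant Ω where
  norm := hcs.norm
  separating := by
    intro b hb h
    ext v
    show b v = 0
    rw [← norm_le_zero_iff]
    refine le_of_forall_pos_le_add fun e he => ?_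
    obtain ⟨x, hx, hxv⟩ := hcs.cyclic v (e / (‖b‖ + 1)) (by positivity)
    have h0 : b (x Ω) = 0 := by rw [← commute_apply hx hb, h, map_zero]
    have h1 : ‖b v‖ ≤ ‖b‖ * (e / (‖b‖ + 1)) := by
      rw [← sub_zero (b v), ← h0, ← map_sub]
      exact (b.le_opNorm _).trans (mul_le_mul_of_nonneg_left
        ((norm_sub_rev _ _).trans_le hxv) (norm_nonneg _))
    have h2 : ‖b‖ * (e / (‖b‖ + 1)) ≤ e := by
      rw [mul_div_assoc', div_le_iff₀ (by positivity)]
      nlinarith [norm_nonneg b]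
    linarith
  cyclic := by
    intro ξ η hη
    let S : Submodule ℂ H :=
      { carrier := {v | ∃ a ∈ M.commutant, a Ω = v}
        add_mem' := by rintro _ _ ⟨a, ha, rfl⟩ ⟨b, hb, rfl⟩; exact ⟨a + b, add_mem ha hb, rfl⟩
        zero_mem' := ⟨0, zero_mem _, rfl⟩
        smul_mem' := by rintro c _ ⟨a, ha, rfl⟩; exact ⟨c • a, smul_mem_alg _ c ha, rfl⟩ }
    have hp : IsStarProjection S.topologicalClosure.starProjection :=
      isStarProjection_starProjection
    set p := S.topologicalClosure.starProjection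
    have hpM : p ∈ M := by
      rw [VonNeumannAlgebra.IsStarProjection.mem_iff hp]
      intro b hb
      rw [Submodule.range_starProjection, Module.End.mem_invtSubmodule]
      intro z hz
      exact map_mem_closure b.continuous hz fun _ ⟨a, ha, h⟩ =>
        ⟨b * a, mul_mem hb ha, by rw [← h]; rfl⟩
    have h0 : (1 - p) Ω = 0 := sub_eq_zero.2
      (Submodule.starProjection_eq_self_iff.2
        (Submodule.le_topologicalClosure S ⟨1, one_mem _, rfl⟩)).symm
    have h1 := hcs.separating _ (sub_mem (one_mem M) hpM) h0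
    have h2 : ξ ∈ S.topologicalClosure := by
      rw [← Submodule.starProjection_eq_self_iff]
      exact (congrArg (fun f : H →L[ℂ] H => f ξ) (sub_eq_zero.1 h1)).symm
    obtain ⟨_, ⟨a, ha, rfl⟩, hd⟩ := Metric.mem_closure_iff.1
      (show ξ ∈ closure (S : Set H) from h2) η hη
    exact ⟨a, ha, by rw [← dist_eq_norm, dist_comm]; exact hd.le⟩

theorem ext_alg (hcs : IsCS M Ω) {v : H} (h : ∀ x ∈ M, ⟪x Ω, v⟫_ℂ = 0) : v = 0 := by
  have hle : ∀ e > 0, ‖v‖ ^ 2 ≤ e := by
    intro e he
    obtain ⟨x, hx, hxv⟩ := hcs.cyclic v (e / (‖v‖ + 1)) (by positivity)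
    have h1 : ⟪v - x Ω, v⟫_ℂ = ⟪v, v⟫_ℂ := by rw [inner_sub_left, h x hx, sub_zero]
    have h2 := norm_inner_le_norm (𝕜 := ℂ) (v - x Ω) v
    rw [h1, norm_inner_symm, inner_self_eq_norm_sq_to_K, norm_pow] at h2
    simp only [Complex.coe_algebraMap, Complex.norm_real, norm_norm] at h2
    refine h2.trans ((mul_le_mul_of_nonneg_right ((norm_sub_rev _ _).trans_le hxv)
      (norm_nonneg _)).trans ?_)
    rw [div_mul_eq_mul_div, div_le_iff₀ (by positivity)]
    nlinarith [norm_nonneg v]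
  have : ‖v‖ ^ 2 ≤ 0 := le_of_forall_pos_le_add fun e he => by simpa using hle e he
  exact norm_eq_zero.1 ((pow_eq_zero_iff two_ne_zero).1 (le_antisymm this (sq_nonneg _)))

/-- The closure of the selfadjoint part applied to the vector. -/
noncomputable def ksp (M : VonNeumannAlgebra H) (Ω : H) : Submodule ℝ H :=
  ({ carrier := {v | ∃ x ∈ M, star x = x ∧ x Ω = v}
     add_mem' := by
      rintro _ _ ⟨a, ha, ha', rfl⟩ ⟨b, hb, hb', rfl⟩
      exact ⟨a + b, add_mem ha hb, by rw [star_add, ha', hb'], rfl⟩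
     zero_mem' := ⟨0, zero_mem _, star_zero _, rfl⟩
     smul_mem' := by
      rintro c _ ⟨a, ha, ha', rfl⟩
      exact ⟨c • a, rsmul_mem_alg M c ha, by rw [star_smul, ha', star_trivial], rfl⟩ } :
    Submodule ℝ H).topologicalClosure

instance : (ksp M Ω).HasOrthogonalProjection :=
  have : CompleteSpace (ksp M Ω) := (Submodule.isClosed_topologicalClosure _).completeSpace_coe
  Submodule.HasOrthogonalProjection.ofCompleteSpace _

theorem mem_ksp {x : H →L[ℂ] H} (hx : x ∈ M) (hs : star x = x) : x Ω ∈ ksp M Ω :=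
  Submodule.le_topologicalClosure _ ⟨x, hx, hs, rfl⟩

theorem exists_near_ksp {k : H} (hk : k ∈ ksp M Ω) {e : ℝ} (he : 0 < e) :
    ∃ x ∈ M, star x = x ∧ ‖x Ω - k‖ ≤ e := by
  obtain ⟨_, ⟨x, hx, hs, rfl⟩, hd⟩ := Metric.mem_closure_iff.1
    (show k ∈ closure {v | ∃ x ∈ M, star x = x ∧ x Ω = v} from hk) e he
  exact ⟨x, hx, hs, by rw [← dist_eq_norm, dist_comm]; exact hd.le⟩

/-- The real orthogonal projection onto `ksp`. -/
noncomputable def projK (M : VonNeumannAlgebra H) (Ω : H) : H →L[ℝ] H := (ksp M Ω).starProjection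

theorem projK_mem (v : H) : projK M Ω v ∈ ksp M Ω := Submodule.starProjection_apply_mem _ v

theorem projK_eq_self {v : H} (h : v ∈ ksp M Ω) : projK M Ω v = v :=
  Submodule.starProjection_eq_self_iff.2 h

theorem re_inner_projK {k : H} (hk : k ∈ ksp M Ω) (v : H) :
    (⟪k, projK M Ω v⟫_ℂ).re = (⟪k, v⟫_ℂ).re := by
  have h := (ksp M Ω).inner_starProjection_left_eq_right k v
  rw [Submodule.starProjection_eq_self_iff.2 hk] at h
  exact h.symm

theorem projK_ext {u v : H} (h : ∀ x ∈ M, star x = x → (⟪x Ω, u⟫_ℂ).re = (⟪x Ω, v⟫_ℂ).re) :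
    projK M Ω u = projK M Ω v := by
  rw [← sub_eq_zero, ← map_sub]
  refine Submodule.eq_starProjection_of_mem_of_inner_eq_zero (Submodule.zero_mem _) fun w hw => ?_
  rw [sub_zero, real_inner_comm]
  refine closure_minimal (t := {w : H | ⟪w, u - v⟫_ℝ = 0}) ?_
    (isClosed_eq (by fun_prop) continuous_const) hw
  rintro _ ⟨x, hx, hs, rfl⟩
  simp only [Set.mem_ofPred_eq, rinner_eq, inner_sub_right, h x hx hs, sub_self]

end Vale.Agent.P132.Tomita
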